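import Vale.Agent.P249.Eps.Inner
import Vale.Agent.P249.Sub.Split

namespace Vale.Agent.P249.Eps

open Finset Vale.Agent.P249.Sub

variable {p : ℝ} {n N : ℕ} {D : Fin n → Fin n → ℝ}

/-- Window features with M coordinates exist around every point for windows of ratio at most Rat. -/
def Feat (p : ℝ) (D : Fin n → Fin n → ℝ) (M : ℕ) (Rat : ℝ) : Prop :=
  ∀ (z : Fin n) (U fl : ℝ), 0 < U → 0 < fl → U / fl ≤ Rat → ∃ G : Fin n → Fin M → ℝ,
    (∀ u u', nrm p (G u - G u') ≤ 20 * max (D u u') fl) ∧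
    (∀ u, nrm p (G u) ≤ 20 * max (D u z) fl) ∧
    ∀ u u', D u z ≤ U → D u' z ≤ U → fl ≤ D u u' → D u u' / 30 ≤ nrm p (G u - G u')

/-- The scale number i of band b. -/
noncomputable def scale (s0 : ℝ) (W b i : ℕ) : ℝ := s0 * 8 ^ (W * b + i)

lemma scale_bounds {s0 : ℝ} (hs0 : 0 < s0) {W : ℕ} (b : ℕ) (i : Fin W) :
    s0 * ((8:ℝ) ^ W) ^ b ≤ scale s0 W b i ∧ scale s0 W b i ≤ s0 * ((8:ℝ) ^ W) ^ (b + 1) := by
  rw [scale, ← pow_mul, ← pow_mul]
  constructor
  · exact mul_le_mul_of_nonneg_left (pow_le_pow_right₀ (by norm_num) (by omega)) hs0.le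
  · refine mul_le_mul_of_nonneg_left (pow_le_pow_right₀ (by norm_num) ?_) hs0.le
    have := i.isLt
    rw [Nat.mul_add, mul_one]
    omega

/-- The smoothing bound of one band. -/
noncomputable def bandL (D : Fin n → Fin n → ℝ) (s0 : ℝ) (W b : ℕ) (x y : Fin n) : ℝ :=
  20 * D x y / W * (20 * ∑ i : Fin W, grow D x (scale s0 W b i / ((8:ℝ) ^ W) ^ 4)
    + 70 * ((univ.filter fun i : Fin W => scale s0 W b i / ((8:ℝ) ^ W) ^ 4 < 16 * D x y).card : ℝ))

/-- The padding radius factor. -/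
noncomputable def pfac (T : ℝ) : ℝ := 1 / (32 * T)

/-- An outcome of one band pads a point. -/
def Pads (D : Fin n → Fin n → ℝ) (s0 : ℝ) (T : ℝ) (W J b : ℕ)
    (o : Fin W × (Equiv.Perm (Fin n) × Fin J)) (x : Fin n) : Prop :=
  ∀ y, D x y ≤ 3 * (pfac T * scale s0 W b o.1) →
    cen D (scale s0 W b o.1) o.2.1 (dil o.2.2) y = cen D (scale s0 W b o.1) o.2.1 (dil o.2.2) x

/-- The maps of one band, one for every outcome. -/
theorem exists_band (hp : 1 ≤ p) (hD : IsDist D) {s0 : ℝ} (hs0 : 0 < s0) {W : ℕ} (hW : 1 ≤ W)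
    {T : ℝ} (hT : 2 ≤ T) (hR : 4800 ≤ (8:ℝ) ^ W) (hRT : 32 * T ≤ (8:ℝ) ^ W) {M : ℕ}
    (hF : Feat p D M (4 * ((8:ℝ) ^ W) ^ 5)) (J b : ℕ) :
    ∃ g : Fin W × (Equiv.Perm (Fin n) × Fin J) → Fin n → Fin M → ℝ,
      (∀ o x, nrm p (g o x) ≤ 60 * scale s0 W b o.1) ∧
      (∀ o x y, nrm p (g o x - g o y) ≤ bandL D s0 W b x y + 3840 * T * D x y) ∧
      (∀ o x y, Pads D s0 T W J b o x → D x y ≤ pfac T * scale s0 W b o.1 →
        nrm p (g o x - g o y) ≤ bandL D s0 W b x y) ∧
      ∀ o x y, Pads D s0 T W J b o x → s0 * ((8:ℝ) ^ W) ^ b / ((8:ℝ) ^ W) ^ 2 < D x y →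
        D x y ≤ s0 * ((8:ℝ) ^ W) ^ b / (8:ℝ) ^ W → D x y / 60 ≤ nrm p (g o x - g o y) := by
  classical
  set R : ℝ := (8:ℝ) ^ W with hRdef
  have hR0 : 0 < R := by positivity
  have hR1 : 1 ≤ R := by linarith
  set fl := s0 * R ^ b / R ^ 4 with hfl
  have hfl0 : 0 < fl := by positivity
  have hrat : 4 * (s0 * R ^ (b + 1)) / fl ≤ 4 * R ^ 5 := by
    refine le_of_eq ?_
    rw [hfl, div_eq_iff (by positivity), pow_succ]
    field_simp
  have hG := fun z => hF z (4 * (s0 * R ^ (b + 1))) fl (by positivity) hfl0 hrat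
  choose G hG1 hG2 hG3 using hG
  have hs' : ∀ i : Fin W, 0 < scale s0 W b i / R ^ 4 := fun i => by unfold scale; positivity
  obtain ⟨avg, havg1, havg2⟩ := exists_inner hp hD hW _ hs' (Fin M)
  have hfls : ∀ i : Fin W, fl ≤ scale s0 W b i / R ^ 4 := fun i =>
    div_le_div_of_nonneg_right (scale_bounds hs0 b i).1 (by positivity)
  set Q : Fin n → Fin n → Fin M → ℝ := fun z x => avg (G z) x with hQ
  have hWr : (0:ℝ) < W := by exact_mod_cast hW
  have hQlip : ∀ z x y, nrm p (Q z x - Q z y) ≤ bandL D s0 W b x y := by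
    intro z x y
    have h := havg2 (G z) 20 fl (by norm_num) hfls (hG1 z) x y
    rw [mul_comm (W:ℝ), ← le_div_iff₀ hWr] at h
    refine h.trans (le_of_eq ?_)
    rw [bandL]; simp only [hRdef]; ring
  have hscale0 : ∀ i : Fin W, 0 < scale s0 W b i := fun i => by unfold scale; positivity
  have h3 : ∀ i i' : Fin W, scale s0 W b i / R ^ 4 ≤ scale s0 W b i' / 2 := by
    intro i i'
    rw [div_le_div_iff₀ (by positivity) (by norm_num)]
    have a1 := (scale_bounds hs0 b i).2
    have a2 := (scale_bounds hs0 b i').1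
    rw [← hRdef] at a1 a2
    have a3 : 2 * R ≤ R ^ 4 := by
      calc 2 * R ≤ R * R := mul_le_mul_of_nonneg_right (by linarith) hR0.le
        _ = R ^ 2 := (sq R).symm
        _ ≤ R ^ 4 := pow_le_pow_right₀ hR1 (by norm_num)
    have a4 : s0 * R ^ (b + 1) * 2 ≤ s0 * R ^ b * R ^ 4 := by
      calc s0 * R ^ (b + 1) * 2 = s0 * R ^ b * (2 * R) := by ring
        _ ≤ _ := mul_le_mul_of_nonneg_left a3 (by positivity)
    have a5 := mul_le_mul_of_nonneg_right a2 (show 0 ≤ R ^ 4 by positivity)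
    linarith
  have hmag : ∀ (o : Fin W × (Equiv.Perm (Fin n) × Fin J)) x,
      nrm p (Q (cen D (scale s0 W b o.1) o.2.1 (dil o.2.2) x) x)
        ≤ 60 * scale s0 W b o.1 := by
    intro o x
    set z := cen D (scale s0 W b o.1) o.2.1 (dil o.2.2) x
    have hz := cen_dist hD (hscale0 o.1).le o.2.1 o.2.2 x
    have := havg1 (G z) x 0 (60 * scale s0 W b o.1) fun i w hw => by
      rw [sub_zero]
      refine (hG2 z w).trans ?_
      have h1 := hD.tri w x z
      rw [hD.comm w x] at h1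
      have h2 := h3 i o.1
      have h4 := hscale0 o.1
      have h5 := hfls i
      have h6 : max (D w z) fl ≤ 3 * scale s0 W b o.1 := max_le (by linarith) (by linarith)
      linarith
    rwa [sub_zero] at this
  have ht0 : ∀ o : Fin W × (Equiv.Perm (Fin n) × Fin J), 0 < pfac T * scale s0 W b o.1 := fun o =>
    mul_pos (by unfold pfac; positivity) (hscale0 o.1)
  have hcut := fun o : Fin W × (Equiv.Perm (Fin n) × Fin J) =>
    exists_cutoff' hp hD (ht0 o) (cen D (scale s0 W b o.1) o.2.1 (dil o.2.2)) Q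
      (B := 1920 * T) (by positivity) (bandL D s0 W b)
      (fun x y => (nrm_nonneg _).trans (hQlip x x y))
      (fun x => (hmag o x).trans (le_of_eq (by rw [pfac]; field_simp; ring)))
      (fun x y _ => hQlip _ x y)
  choose g hg1 hg2 hg3 using hcut
  have hboth : ∀ o x y, Pads D s0 T W J b o x → D x y ≤ pfac T * scale s0 W b o.1 →
      g o x = Q (cen D (scale s0 W b o.1) o.2.1 (dil o.2.2) x) x ∧
      g o y = Q (cen D (scale s0 W b o.1) o.2.1 (dil o.2.2) x) y := by
    intro o x y hpad hxy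
    have := ht0 o
    have hy : cen D (scale s0 W b o.1) o.2.1 (dil o.2.2) y
        = cen D (scale s0 W b o.1) o.2.1 (dil o.2.2) x := hpad y (by linarith)
    refine ⟨hg3 o x fun w hw => hpad w (by linarith), ?_⟩
    rw [hg3 o y fun w hw => ?_, hy]
    rw [hy]
    exact hpad w (by linarith [hD.tri x y w])
  refine ⟨g, fun o x => ?_, fun o x y => (hg1 o x y).trans (le_of_eq (by ring)),
    fun o x y hpad hxy => ?_, fun o x y hpad hlo hhi => ?_⟩
  · refine (hg2 o x).trans (le_of_eq ?_)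
    rw [pfac]; field_simp; ring
  · obtain ⟨e1, e2⟩ := hboth o x y hpad hxy
    rw [e1, e2]; exact hQlip _ x y
  · have hsb := scale_bounds hs0 b o.1
    rw [← hRdef] at hsb
    have hsc := hscale0 o.1
    have hxy : D x y ≤ pfac T * scale s0 W b o.1 := by
      refine hhi.trans ?_
      rw [pfac, div_eq_mul_inv, mul_comm, ← one_div]
      exact mul_le_mul (one_div_le_one_div_of_le (by positivity) hRT) hsb.1 (by positivity) (by positivity)
    obtain ⟨e1, e2⟩ := hboth o x y hpad hxy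
    rw [e1, e2]
    set z := cen D (scale s0 W b o.1) o.2.1 (dil o.2.2) x
    set r := D x y with hr
    have hsmall : ∀ i : Fin W, 2 * (scale s0 W b i / R ^ 4) ≤ 2 * (r / R) := by
      intro i
      refine mul_le_mul_of_nonneg_left ?_ (by norm_num)
      have a1 := (scale_bounds hs0 b i).2
      rw [← hRdef] at a1
      rw [div_lt_iff₀ (by positivity)] at hlo
      rw [div_le_div_iff₀ (by positivity) hR0]
      have a2 := mul_le_mul_of_nonneg_right a1 hR0.le
      have a3 := mul_le_mul_of_nonneg_right hlo.le (show 0 ≤ R ^ 2 by positivity)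
      have e : s0 * R ^ (b + 1) * R = s0 * R ^ b * R ^ 2 := by ring
      have e' : r * R ^ 2 * R ^ 2 = r * R ^ 4 := by ring
      linarith
    have i0 : Fin W := ⟨0, hW⟩
    have hflr : fl ≤ 2 * (r / R) := by
      have := hfls i0
      have := hsmall i0
      linarith [hs' i0]
    have hclose : ∀ u, nrm p (Q z u - G z u) ≤ 40 * (r / R) := fun u =>
      havg1 (G z) u _ _ fun i w hw => (hG1 z w u).trans
        (by
          have : max (D w u) fl ≤ 2 * (r / R) :=
            max_le (by rw [hD.comm w u]; exact hw.trans (hsmall i)) hflr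
          linarith)
    have hrR : r / R ≤ r / 4800 := div_le_div_of_nonneg_left (hD.nonneg x y) (by norm_num) hR
    have hz := cen_dist hD hsc.le o.2.1 o.2.2 x
    have hUb : 3 * scale s0 W b o.1 ≤ 4 * (s0 * R ^ (b + 1)) := by linarith [hsb.2]
    have hrs : r ≤ scale s0 W b o.1 := by
      have hp1 : pfac T * scale s0 W b o.1 ≤ scale s0 W b o.1 :=
        mul_le_of_le_one_left hsc.le (by rw [pfac, div_le_one (by positivity)]; linarith)
      linarith
    have hlow := hG3 z x y (by linarith) (by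
      have := hD.tri y x z
      rw [hD.comm y x] at this
      linarith) (by linarith [hD.nonneg x y])
    have t4 := nrm_sub_le_sub hp (G z x) (Q z x) (G z y)
    have t5 := nrm_sub_le_sub hp (Q z x) (Q z y) (G z y)
    rw [nrm_sub_comm (G z x) (Q z x)] at t4
    have := hclose x
    have := hclose y
    have := hD.nonneg x y
    linarith

end Vale.Agent.P249.Eps
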