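import Vale.Agent.P249.Sub.Partition
import Vale.Agent.P249.Sub.Nrm

namespace Vale.Agent.P249.Eps

open Finset Vale.Agent.P249.Sub

variable {p : ℝ} {n : ℕ} {D : Fin n → Fin n → ℝ}

/-- The logarithmic growth of balls around x at scale s. -/
noncomputable def grow (D : Fin n → Fin n → ℝ) (x : Fin n) (s : ℝ) : ℝ :=
  Real.log ((ball D x (3 * s)).card) - Real.log ((ball D x (s / 2)).card)

lemma grow_nonneg (hD : IsDist D) (x : Fin n) {s : ℝ} (hs : 0 ≤ s) : 0 ≤ grow D x s := by
  have hm : 1 ≤ ((ball D x (s / 2)).card : ℝ) := by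
    exact_mod_cast card_pos.2 ⟨x, mem_ball.2 (by rw [hD.self]; linarith)⟩
  refine sub_nonneg.2 (Real.log_le_log (by linarith) ?_)
  exact_mod_cast card_le_card (ball_mono (D := D) (x := x) (show s / 2 ≤ 3 * s by linarith))

/-- The random centre at a fixed scale s. -/
noncomputable def cen (D : Fin n → Fin n → ℝ) (s : ℝ) (π : Equiv.Perm (Fin n)) (α : ℝ) (x : Fin n) :
    Fin n :=
  centre D (fun _ => s) π α x

lemma cen_dist (hD : IsDist D) {s : ℝ} (hs : 0 ≤ s) (π : Equiv.Perm (Fin n)) {J : ℕ} (j : Fin J)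
    (x : Fin n) : D x (cen D s π (dil j) x) ≤ 2 * s :=
  (centre_spec hD (fun _ => s) (fun _ => hs) π (zero_le_one.trans (dil_bounds j).1) x).trans
    (mul_le_mul_of_nonneg_right (dil_bounds j).2 hs)

/-- The number of cutting outcomes at a fixed scale. -/
lemma cut_count_scale (hD : IsDist D) {s : ℝ} (hs : 0 < s) (x : Fin n) {t : ℝ} (ht0 : 0 ≤ t)
    (ht : t ≤ s / 16) (J : ℕ) [DecidablePred fun o : Equiv.Perm (Fin n) × Fin J =>
      isCut D (fun _ => s) o.1 (dil o.2) x t] :
    ((univ.filter fun o : Equiv.Perm (Fin n) × Fin J => isCut D (fun _ => s) o.1 (dil o.2) x t).card : ℝ)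
      ≤ Fintype.card (Equiv.Perm (Fin n)) * (((5 / 2) * (J:ℝ) * (t / s) + 1) * grow D x s) :=
  cut_count hD (fun _ => s) (fun _ => hs) (fun y z => by
    rw [sub_self, abs_zero]; exact div_nonneg (hD.nonneg y z) (by norm_num)) x ht0 ht J

/-- Averaging over random centres at W given scales, uniformly in the averaged function. -/
theorem exists_inner (hp : 1 ≤ p) (hD : IsDist D) {W : ℕ} (hW : 1 ≤ W) (s : Fin W → ℝ)
    (hs : ∀ i, 0 < s i) (κ : Type*) [Fintype κ] :
    ∃ avg : (Fin n → κ → ℝ) → Fin n → κ → ℝ,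
      (∀ (G : Fin n → κ → ℝ) (x : Fin n) (c : κ → ℝ) (B : ℝ),
        (∀ i z, D x z ≤ 2 * s i → nrm p (G z - c) ≤ B) → nrm p (avg G x - c) ≤ B) ∧
      ∀ (G : Fin n → κ → ℝ) (C fl : ℝ), 0 ≤ C → (∀ i, fl ≤ s i) →
        (∀ z z', nrm p (G z - G z') ≤ C * max (D z z') fl) →
        ∀ x y, (W:ℝ) * nrm p (avg G x - avg G y) ≤ C * D x y *
          (20 * ∑ i, grow D x (s i) + 70 * ((univ.filter fun i => s i < 16 * D x y).card : ℝ)) := by
  classical
  obtain ⟨J, hJ1, hJ⟩ : ∃ J : ℕ, 1 ≤ J ∧ ∀ (i : Fin W) x y, x ≠ y → s i ≤ J * D x y := by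
    refine ⟨⌈∑ q : Fin W × (Fin n × Fin n), s q.1 / D q.2.1 q.2.2⌉₊ + 1, by omega, fun i x y hxy => ?_⟩
    have hd := hD.pos x y hxy
    rw [← div_le_iff₀ hd]
    refine le_trans ?_ (le_trans (Nat.le_ceil _) (by push_cast; linarith))
    exact single_le_sum (f := fun q : Fin W × (Fin n × Fin n) => s q.1 / D q.2.1 q.2.2)
      (fun q _ => div_nonneg (hs q.1).le (hD.nonneg _ _)) (mem_univ (i, (x, y)))
  let Ω := Fin W × (Equiv.Perm (Fin n) × Fin J)
  let cn : Ω → Fin n → Fin n := fun o x => cen D (s o.1) o.2.1 (dil o.2.2) x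
  set P : ℝ := ((Fintype.card (Equiv.Perm (Fin n)) : ℕ) : ℝ) with hP
  have hP0 : 0 < P := by rw [hP]; exact_mod_cast Fintype.card_pos
  have hcardΩ : (Fintype.card Ω : ℝ) = W * (P * J) := by simp [Ω, hP]
  have hWr : (0:ℝ) < W := by exact_mod_cast hW
  have hJr : (0:ℝ) < J := by exact_mod_cast hJ1
  have hcard : (0:ℝ) < Fintype.card Ω := by rw [hcardΩ]; positivity
  refine ⟨fun G x => (Fintype.card Ω : ℝ)⁻¹ • ∑ o : Ω, G (cn o x), fun G x c B hB => ?_,
    fun G C fl hC hfl hG x y => ?_⟩
  · have e : (Fintype.card Ω : ℝ)⁻¹ • ∑ o : Ω, G (cn o x) - c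
        = ∑ o : Ω, (Fintype.card Ω : ℝ)⁻¹ • (G (cn o x) - c) := by
      simp only [smul_sub, sum_sub_distrib, ← smul_sum, sum_const, card_univ,
        ← Nat.cast_smul_eq_nsmul ℝ, smul_smul, inv_mul_cancel₀ hcard.ne', one_smul]
    simp only []
    rw [e]
    refine (nrm_wsum_le hp _ _ _ fun o _ => inv_nonneg.2 hcard.le).trans ?_
    calc ∑ o : Ω, (Fintype.card Ω : ℝ)⁻¹ * nrm p (G (cn o x) - c)
        ≤ ∑ o : Ω, (Fintype.card Ω : ℝ)⁻¹ * B :=
          sum_le_sum fun o _ => mul_le_mul_of_nonneg_left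
            (hB o.1 _ (cen_dist hD (hs _).le _ _ x)) (inv_nonneg.2 hcard.le)
      _ = B := by
          rw [sum_const, card_univ, nsmul_eq_mul, ← mul_assoc, mul_inv_cancel₀ hcard.ne', one_mul]
  · rcases eq_or_ne x y with rfl | hxy
    · simp only [sub_self, nrm_zero hp, hD.self, mul_zero, zero_mul, le_refl]
    set r := D x y with hr
    have hr0 : 0 < r := hD.pos x y hxy
    simp only []
    rw [← smul_sub, ← sum_sub_distrib, nrm_smul hp, abs_of_pos (inv_pos.2 hcard)]
    have hpt : ∀ o : Ω, nrm p (G (cn o x) - G (cn o y)) ≤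
        if isCut D (fun _ => s o.1) o.2.1 (dil o.2.2) x r then C * (4 * s o.1 + r) else 0 := by
      intro o
      split_ifs with hcut
      · refine (hG _ _).trans (mul_le_mul_of_nonneg_left (max_le ?_ ?_) hC)
        · have h1 := cen_dist hD (hs o.1).le o.2.1 o.2.2 x
          have h2 := cen_dist hD (hs o.1).le o.2.1 o.2.2 y
          have h3 := hD.tri (cn o x) x (cn o y)
          have h4 := hD.tri x y (cn o y)
          rw [hD.comm (cn o x) x] at h3
          simp only [cn] at h3 h4 ⊢
          linarith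
        · linarith [hfl o.1, hs o.1]
      · have : cn o y = cn o x := by
          by_contra hne
          exact hcut ⟨y, le_rfl, hne⟩
        rw [this, sub_self, nrm_zero hp]
    have hi : ∀ i : Fin W, ∑ o : Equiv.Perm (Fin n) × Fin J,
        (if isCut D (fun _ => s i) o.1 (dil o.2) x r then C * (4 * s i + r) else 0)
        ≤ C * r * (P * J) * (20 * grow D x (s i) + if s i < 16 * r then 70 else 0) := by
      intro i
      rw [← sum_filter, sum_const, nsmul_eq_mul]
      have hsi := hs i
      have hg := grow_nonneg hD x hsi.le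
      by_cases hsmall : s i < 16 * r
      · rw [if_pos hsmall]
        have h1 : ((univ.filter fun o : Equiv.Perm (Fin n) × Fin J =>
            isCut D (fun _ => s i) o.1 (dil o.2) x r).card : ℝ) ≤ P * J := by
          rw [hP]
          have := card_le_univ (univ.filter fun o : Equiv.Perm (Fin n) × Fin J =>
            isCut D (fun _ => s i) o.1 (dil o.2) x r)
          simpa using (Nat.cast_le (α := ℝ)).2 this
        refine (mul_le_mul h1 (mul_le_mul_of_nonneg_left
          (show 4 * s i + r ≤ 70 * r by linarith) hC) (by positivity) (by positivity)).trans ?_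
        have : 0 ≤ C * r * (P * J) * (20 * grow D x (s i)) := by positivity
        linarith
      · rw [if_neg hsmall, add_zero]
        rw [not_lt] at hsmall
        have h1 := cut_count_scale hD hsi x hr0.le (by linarith) J
        refine (mul_le_mul_of_nonneg_right h1 (by positivity)).trans ?_
        have h2 : (5 / 2 * (J:ℝ) * (r / s i) + 1) * (4 * s i + r) ≤ 20 * ((J:ℝ) * r) := by
          have hJr2 := hJ i x y hxy
          calc (5 / 2 * (J:ℝ) * (r / s i) + 1) * (4 * s i + r)
              ≤ (5 / 2 * (J:ℝ) * (r / s i) + 1) * (5 * s i) :=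
                mul_le_mul_of_nonneg_left (by linarith) (by positivity)
            _ = 25 / 2 * ((J:ℝ) * r) + 5 * s i := by field_simp; ring
            _ ≤ _ := by linarith
        have h3 := mul_le_mul_of_nonneg_left h2 (mul_nonneg hC (mul_nonneg hP0.le hg))
        simp only [← hP]
        linarith
    have hsum : nrm p (∑ o : Ω, (G (cn o x) - G (cn o y)))
        ≤ C * r * (P * J) * (20 * ∑ i, grow D x (s i)
            + 70 * ((univ.filter fun i => s i < 16 * r).card : ℝ)) := by
      refine (nrm_sum_le hp _ _).trans ((sum_le_sum fun o _ => hpt o).trans ?_)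
      rw [Fintype.sum_prod_type]
      refine (sum_le_sum fun i _ => hi i).trans (le_of_eq ?_)
      rw [← mul_sum, sum_add_distrib, ← mul_sum, ← sum_filter, sum_const, nsmul_eq_mul]
      ring
    have h := mul_le_mul_of_nonneg_left hsum (show 0 ≤ (W:ℝ) * (Fintype.card Ω : ℝ)⁻¹ by positivity)
    rw [hcardΩ] at h ⊢
    refine le_trans (le_of_eq (by ring)) (h.trans (le_of_eq ?_))
    field_simp

/-- Extending maps on the classes of a partition by a cutoff, with pairwise bounds. -/
theorem exists_cutoff' (hp : 1 ≤ p) {κ : Type*} [Fintype κ] (hD : IsDist D) {t : ℝ} (ht : 0 < t)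
    (c : Fin n → Fin n) (Φ : Fin n → Fin n → κ → ℝ) {B : ℝ} (hB : 0 ≤ B)
    (L : Fin n → Fin n → ℝ) (hL : ∀ x y, 0 ≤ L x y)
    (hmag : ∀ x, nrm p (Φ (c x) x) ≤ B * t)
    (hlip : ∀ x y, c x = c y → nrm p (Φ (c x) x - Φ (c x) y) ≤ L x y) :
    ∃ g : Fin n → κ → ℝ, (∀ x y, nrm p (g x - g y) ≤ L x y + 2 * B * D x y) ∧
      (∀ x, nrm p (g x) ≤ B * t) ∧
      ∀ x, (∀ w, D x w < t → c w = c x) → g x = Φ (c x) x := by
  classical
  set lam : Fin n → ℝ := fun x => univ.inf' ⟨x, mem_univ x⟩
    (fun w => if c w = c x then 1 else min 1 (D x w / t)) with hlam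
  have lam1 : ∀ x, lam x ≤ 1 := fun x => (inf'_le _ (mem_univ x)).trans (by simp)
  have lam0 : ∀ x, 0 ≤ lam x := fun x => le_inf' _ _ fun w _ => by
    split_ifs
    · norm_num
    · exact le_min zero_le_one (div_nonneg (hD.nonneg _ _) ht.le)
  have lam_le : ∀ x w, c w ≠ c x → lam x ≤ D x w / t := fun x w h =>
    (inf'_le _ (mem_univ w)).trans (by simp [h])
  have lam_diff : ∀ x y, c x = c y → |lam x - lam y| * t ≤ D x y := by
    have one : ∀ x y, c x = c y → (lam y - lam x) * t ≤ D x y := by
      intro x y hxy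
      obtain ⟨w, -, hw⟩ := exists_mem_eq_inf' ⟨x, mem_univ x⟩
        (fun w => if c w = c x then (1:ℝ) else min 1 (D x w / t))
      change lam x = _ at hw
      by_cases hle : lam y ≤ lam x
      · exact (mul_nonpos_of_nonpos_of_nonneg (by linarith) ht.le).trans (hD.nonneg x y)
      · rw [not_le] at hle
        have hne : c w ≠ c x := fun h => by
          simp only [h, if_true] at hw
          linarith [lam1 y]
        simp only [hne, if_false] at hw
        have hw' : lam x = D x w / t := by
          rcases min_choice (1:ℝ) (D x w / t) with h | h <;> rw [h] at hw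
          · linarith [lam1 y]
          · exact hw
        have h1 := lam_le y w (hxy ▸ hne)
        rw [le_div_iff₀ ht] at h1
        rw [hw', sub_mul, div_mul_cancel₀ _ ht.ne']
        have := hD.tri y x w
        rw [hD.comm y x] at this
        linarith
    intro x y hxy
    rcases le_total (lam x) (lam y) with h | h
    · rw [abs_of_nonpos (by linarith), neg_sub]; exact one x y hxy
    · rw [abs_of_nonneg (by linarith)]
      have := one y x hxy.symm
      rwa [hD.comm y x] at this
  refine ⟨fun x => lam x • Φ (c x) x, fun x y => ?_, fun x => ?_, fun x hx => ?_⟩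
  · have hr := hD.nonneg x y
    by_cases hxy : c x = c y
    · simp only []; rw [← hxy, show lam x • Φ (c x) x - lam y • Φ (c x) y
        = lam x • (Φ (c x) x - Φ (c x) y) + (lam x - lam y) • Φ (c x) y by
          rw [smul_sub, sub_smul]; abel]
      refine (nrm_add_le hp _ _).trans ?_
      rw [nrm_smul hp, nrm_smul hp, abs_of_nonneg (lam0 x)]
      have h1 := mul_le_mul (lam1 x) (hlip x y hxy) (nrm_nonneg _) zero_le_one
      have h2 : |lam x - lam y| * nrm p (Φ (c x) y) ≤ B * D x y := by
        calc |lam x - lam y| * nrm p (Φ (c x) y) ≤ |lam x - lam y| * (B * t) :=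
              mul_le_mul_of_nonneg_left (hxy ▸ hmag y) (abs_nonneg _)
          _ = B * (|lam x - lam y| * t) := by ring
          _ ≤ _ := mul_le_mul_of_nonneg_left (lam_diff x y hxy) hB
      have := mul_nonneg hB hr
      linarith
    · refine (nrm_sub_le hp _ _).trans ?_
      rw [nrm_smul hp, nrm_smul hp, abs_of_nonneg (lam0 x), abs_of_nonneg (lam0 y)]
      have h1 := mul_le_mul (lam_le x y (Ne.symm hxy)) (hmag x) (nrm_nonneg _)
        (div_nonneg hr ht.le)
      have h2 := mul_le_mul (lam_le y x hxy) (hmag y) (nrm_nonneg _)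
        (div_nonneg (hD.nonneg _ _) ht.le)
      rw [show D x y / t * (B * t) = B * D x y by field_simp] at h1
      rw [show D y x / t * (B * t) = B * D x y by rw [hD.comm y x]; field_simp] at h2
      linarith [hL x y]
  · rw [nrm_smul hp, abs_of_nonneg (lam0 x)]
    exact (mul_le_of_le_one_left (nrm_nonneg _) (lam1 x)).trans (hmag x)
  · have : lam x = 1 := by
      refine le_antisymm (lam1 x) (le_inf' _ _ fun w _ => ?_)
      split_ifs with h
      · exact le_rfl
      · refine le_min le_rfl ((one_le_div₀ ht).2 ?_)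
        by_contra hh
        exact h (hx w (not_le.1 hh))
    simp only [this, one_smul]

end Vale.Agent.P249.Eps
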