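import Vale.Agent.P249.Eps.Band

namespace Vale.Agent.P249.Eps

open Finset Vale.Agent.P249.Sub

variable {p : ℝ}

/-- Sampling coordinates of vectors with small entries. -/
theorem exists_coord_pick (hp : 1 ≤ p) {P : Type} [Fintype P] {N : ℕ} (s : P → Fin N → ℝ)
    (hN : 1 ≤ N) {η fl : ℝ} (hη : 0 < η) (hfl : 0 < fl) (hs : ∀ e k, |s e k| ≤ η) {M : ℕ} (hM1 : 1 ≤ M)
    (hM : 4 * Real.log (2 * (Fintype.card (P × P) : ℝ)) * N * ((2 * η) / fl) ^ p ≤ M) :
    ∃ ω : Fin M → Fin N, ∀ e0 e1,
      nrm p ((fun l => ((N:ℝ) / M) ^ (1 / p) * s e0 (ω l))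
          - fun l => ((N:ℝ) / M) ^ (1 / p) * s e1 (ω l)) ≤ 3 * max (nrm p (s e0 - s e1)) fl ∧
        (fl ≤ nrm p (s e0 - s e1) → nrm p (s e0 - s e1) / 3 ≤
          nrm p ((fun l => ((N:ℝ) / M) ^ (1 / p) * s e0 (ω l))
            - fun l => ((N:ℝ) / M) ^ (1 / p) * s e1 (ω l))) := by
  classical
  have hp0 : 0 < p := by linarith
  have hNr : (0:ℝ) < N := by exact_mod_cast hN
  have h2η : 0 < (2 * η) ^ p := Real.rpow_pos_of_pos (by positivity) p
  set Λ := Real.log (2 * (Fintype.card (P × P) : ℝ)) with hΛ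
  set u : P × P → Fin N → ℝ := fun e k => |s e.1 k - s e.2 k| ^ p / (2 * η) ^ p with hu
  obtain ⟨ω, hω⟩ := sample2 (fun _ : Fin N => (N:ℝ)⁻¹) (fun _ => by positivity)
    (by rw [sum_const, card_univ, Fintype.card_fin, nsmul_eq_mul, mul_inv_cancel₀ hNr.ne']) u
    (fun e k => div_nonneg (Real.rpow_nonneg (abs_nonneg _) _) h2η.le)
    (fun e k => (div_le_one h2η).2 (Real.rpow_le_rpow (abs_nonneg _)
      ((abs_sub _ _).trans (by linarith [hs e.1 k, hs e.2 k])) hp0.le))
    (le_refl Λ) M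
  have hMr : (0:ℝ) < M := by exact_mod_cast hM1
  set c := ((N:ℝ) / M) ^ (1 / p) with hc
  have hc0 : 0 ≤ c := Real.rpow_nonneg (by positivity) _
  refine ⟨ω, fun e0 e1 => ?_⟩
  obtain ⟨hup, hlo⟩ := hω (e0, e1)
  set N0 := nrm p (s e0 - s e1) with hN0
  have hN00 : 0 ≤ N0 := nrm_nonneg _
  have hmean : (M:ℝ) * ∑ k, (N:ℝ)⁻¹ * u (e0, e1) k = (M:ℝ) / N * (N0 ^ p / (2 * η) ^ p) := by
    rw [← mul_sum, hN0, nrm_rpow hp, sum_div]
    simp only [hu, Pi.sub_apply]
    ring
  have hF : ∑ l, |c * s e0 (ω l) - c * s e1 (ω l)| ^ p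
      = (N:ℝ) / M * (2 * η) ^ p * ∑ l, u (e0, e1) (ω l) := by
    rw [mul_sum]
    refine sum_congr rfl fun l _ => ?_
    rw [← mul_sub, abs_mul, abs_of_nonneg hc0, Real.mul_rpow hc0 (abs_nonneg _), hc,
      ← Real.rpow_mul (by positivity), one_div, inv_mul_cancel₀ hp0.ne', Real.rpow_one]
    simp only [hu]
    field_simp
  have hΛfl : 4 * Λ ≤ (M:ℝ) / N * (fl ^ p / (2 * η) ^ p) := by
    rw [Real.div_rpow (by positivity) hfl.le] at hM
    rw [div_mul_div_comm, le_div_iff₀ (by positivity)]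
    have := mul_le_mul_of_nonneg_right hM (Real.rpow_nonneg hfl.le p)
    rw [show 4 * Λ * N * ((2 * η) ^ p / fl ^ p) * fl ^ p = 4 * Λ * (N * (2 * η) ^ p) by
      field_simp [(Real.rpow_pos_of_pos hfl p).ne']] at this
    linarith
  rw [hmean] at hup hlo
  constructor
  · refine nrm_le_of_psum_le hp (mul_nonneg (by norm_num) (le_max_of_le_left hN00)) ?_
    simp only [Pi.sub_apply]
    rw [hF, Real.mul_rpow (by norm_num) (le_max_of_le_left hN00)]
    calc (N:ℝ) / M * (2 * η) ^ p * ∑ l, u (e0, e1) (ω l)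
        ≤ (N:ℝ) / M * (2 * η) ^ p
            * (3 * max ((M:ℝ) / N * (N0 ^ p / (2 * η) ^ p)) Λ) :=
          mul_le_mul_of_nonneg_left hup (by positivity)
      _ ≤ (N:ℝ) / M * (2 * η) ^ p * (3 * ((M:ℝ) / N * (max N0 fl ^ p / (2 * η) ^ p))) := by
          refine mul_le_mul_of_nonneg_left (mul_le_mul_of_nonneg_left (max_le ?_ ?_) (by norm_num))
            (by positivity)
          · exact mul_le_mul_of_nonneg_left (div_le_div_of_nonneg_right
              (Real.rpow_le_rpow hN00 (le_max_left _ _) hp0.le) h2η.le) (by positivity)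
          · have hb : 0 ≤ (M:ℝ) / N * (fl ^ p / (2 * η) ^ p) :=
              mul_nonneg (by positivity) (div_nonneg (Real.rpow_nonneg hfl.le p) h2η.le)
            refine le_trans (by linarith : Λ ≤ (M:ℝ) / N * (fl ^ p / (2 * η) ^ p)) ?_
            exact mul_le_mul_of_nonneg_left (div_le_div_of_nonneg_right
              (Real.rpow_le_rpow hfl.le (le_max_right _ _) hp0.le) h2η.le) (by positivity)
      _ = 3 * max N0 fl ^ p := by field_simp
      _ ≤ _ := mul_le_mul_of_nonneg_right (Real.self_le_rpow_of_one_le (by norm_num) hp)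
          (Real.rpow_nonneg (le_max_of_le_left hN00) p)
  · intro hge
    refine le_nrm_of_le_psum hp (by positivity) ?_
    simp only [Pi.sub_apply]
    rw [hF]
    have h5 := hlo (hΛfl.trans (mul_le_mul_of_nonneg_left (div_le_div_of_nonneg_right
      (Real.rpow_le_rpow hfl.le hge hp0.le) h2η.le) (by positivity)))
    calc (N0 / 3) ^ p ≤ N0 ^ p / 3 := by
          rw [Real.div_rpow hN00 (by norm_num)]
          exact div_le_div_of_nonneg_left (Real.rpow_nonneg hN00 p) (by norm_num)
            (Real.self_le_rpow_of_one_le (by norm_num) hp)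
      _ = (N:ℝ) / M * (2 * η) ^ p * ((M:ℝ) / N * (N0 ^ p / (2 * η) ^ p) / 3) := by field_simp
      _ ≤ _ := mul_le_mul_of_nonneg_left h5 (by positivity)

/-- Geometric thresholds, closed by zero after level K. -/
noncomputable def lev (U G : ℝ) (K i : ℕ) : ℝ := if i ≤ K then U / G ^ i else 0

/-- The part of a number between two consecutive thresholds. -/
noncomputable def piece (τ σ t : ℝ) : ℝ := cut τ t - cut σ t

lemma lev_nonneg {U G : ℝ} (hU : 0 ≤ U) (hG : 0 ≤ G) (K i : ℕ) : 0 ≤ lev U G K i := by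
  unfold lev; split_ifs <;> positivity

lemma lev_succ_le {U G : ℝ} (hU : 0 ≤ U) (hG : 3 ≤ G) (K i : ℕ) :
    3 * lev U G K (i + 1) ≤ lev U G K i := by
  have hG0 : 0 < G := by linarith
  unfold lev
  split_ifs with h1 h2 h3
  · rw [pow_succ, ← div_div, ← mul_div_assoc, div_le_iff₀ hG0, mul_comm 3]
    exact mul_le_mul_of_nonneg_left hG (by positivity)
  · omega
  · rw [mul_zero]; positivity
  · rw [mul_zero]

lemma cut_mono (η : ℝ) {a b : ℝ} (h : a ≤ b) : cut η a ≤ cut η b :=
  max_le_max le_rfl (min_le_min le_rfl h)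

lemma soft_mono {η : ℝ} (hη : 0 ≤ η) {a b : ℝ} (h : a ≤ b) : a - cut η a ≤ b - cut η b := by
  have := le_of_abs_le (cut_lip η b a)
  rw [abs_of_nonneg (sub_nonneg.2 h)] at this
  linarith

lemma cut_cut {τ σ : ℝ} (h0 : 0 ≤ σ) (h : σ ≤ τ) (t : ℝ) : cut σ (cut τ t) = cut σ t := by
  unfold cut
  rcases le_total t (-τ) with h1 | h1
  · rw [min_eq_right (by linarith : t ≤ τ), max_eq_left h1, min_eq_right (by linarith : -τ ≤ σ),
      min_eq_right (by linarith : t ≤ σ), max_eq_left (by linarith), max_eq_left (by linarith)]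
  rcases le_total τ t with h2 | h2
  · rw [min_eq_left h2, max_eq_right (show -τ ≤ τ by linarith), min_eq_left h,
      min_eq_left (show σ ≤ t by linarith)]
  · rw [min_eq_right h2, max_eq_right h1]

lemma piece_eq {τ σ : ℝ} (h0 : 0 ≤ σ) (h : σ ≤ τ) (t : ℝ) :
    piece τ σ t = cut τ t - cut σ (cut τ t) := by rw [cut_cut h0 h, piece]

lemma piece_mono {τ σ : ℝ} (h0 : 0 ≤ σ) (h : σ ≤ τ) {a b : ℝ} (hab : a ≤ b) :
    piece τ σ a ≤ piece τ σ b := by
  rw [piece_eq h0 h, piece_eq h0 h]; exact soft_mono h0 (cut_mono τ hab)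

lemma cut_zero (t : ℝ) : cut 0 t = 0 := by
  rw [cut, neg_zero, max_eq_left]; exact min_le_left _ _

lemma piece_sum {U G : ℝ} (K : ℕ) {t : ℝ} (ht : |t| ≤ U) :
    ∑ i ∈ range (K + 1), piece (lev U G K i) (lev U G K (i + 1)) t = t := by
  rw [show (∑ i ∈ range (K + 1), piece (lev U G K i) (lev U G K (i + 1)) t)
    = ∑ i ∈ range (K + 1), (cut (lev U G K i) t - cut (lev U G K (i + 1)) t) from rfl,
    sum_range_sub']
  simp only [lev, zero_le, if_true, pow_zero, div_one, Nat.not_succ_le_self, if_false]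
  rw [cut_zero, sub_zero, cut_of_small ht]

/-- Splitting into levels keeps powers of differences. -/
lemma piece_psum_le (hp : 1 ≤ p) {U G : ℝ} (hU : 0 ≤ U) (hG : 3 ≤ G) (K : ℕ) {a b : ℝ}
    (ha : |a| ≤ U) (hb : |b| ≤ U) :
    (∑ i ∈ range (K + 1), |piece (lev U G K i) (lev U G K (i + 1)) a
      - piece (lev U G K i) (lev U G K (i + 1)) b| ^ p) ≤ |a - b| ^ p := by
  wlog hba : b ≤ a generalizing a b
  · have := this hb ha (le_of_not_ge hba)
    rw [abs_sub_comm b a] at this
    refine le_trans (le_of_eq (sum_congr rfl fun i _ => ?_)) this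
    rw [abs_sub_comm]
  set d : ℕ → ℝ := fun i => piece (lev U G K i) (lev U G K (i + 1)) a
    - piece (lev U G K i) (lev U G K (i + 1)) b with hd
  have hd0 : ∀ i, 0 ≤ d i := fun i => sub_nonneg.2 (piece_mono (lev_nonneg hU (by linarith) _ _)
    (by linarith [lev_succ_le hU hG K i, lev_nonneg (U := U) (G := G) hU (by linarith) K (i + 1)]) hba)
  have hsum : ∑ i ∈ range (K + 1), d i = a - b := by
    rw [hd, sum_sub_distrib, piece_sum K ha, piece_sum K hb]
  have hle : ∀ i ∈ range (K + 1), |d i| ^ p ≤ d i * (a - b) ^ (p - 1) := by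
    intro i hi
    rw [abs_of_nonneg (hd0 i)]
    have h1 : d i ≤ a - b := hsum ▸ single_le_sum (fun j _ => hd0 j) hi
    calc d i ^ p = d i * d i ^ (p - 1) := by
          rw [← Real.rpow_one_add' (hd0 i) (by linarith)]; congr 1; ring
      _ ≤ _ := mul_le_mul_of_nonneg_left (Real.rpow_le_rpow (hd0 i) h1 (by linarith)) (hd0 i)
  refine (sum_le_sum hle).trans (le_of_eq ?_)
  rw [← sum_mul, hsum, abs_of_nonneg (sub_nonneg.2 hba),
    ← Real.rpow_one_add' (sub_nonneg.2 hba) (by linarith)]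
  congr 1; ring

/-- Two adjacent levels carry a difference. -/
lemma le_piece_psum (hp : 1 ≤ p) {U G : ℝ} (hU : 0 ≤ U) (hG : 3 ≤ G) (K : ℕ) {a b : ℝ}
    (ha : |a| ≤ U) (hb : |b| ≤ U) :
    |a - b| ^ p ≤ 3 ^ p * ∑ i ∈ range (K + 1), |piece (lev U G K i) (lev U G K (i + 1)) a
      - piece (lev U G K i) (lev U G K (i + 1)) b| ^ p := by
  wlog hba : b ≤ a generalizing a b
  · have := this hb ha (le_of_not_ge hba)
    rw [abs_sub_comm b a] at this
    refine this.trans (le_of_eq ?_)
    congr 1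
    refine sum_congr rfl fun i _ => ?_
    rw [abs_sub_comm]
  set τ : ℕ → ℝ := fun i => lev U G K i with hτ
  set d : ℕ → ℝ := fun i => piece (τ i) (τ (i + 1)) a - piece (τ i) (τ (i + 1)) b with hd
  have hτ0 : ∀ i, 0 ≤ τ i := fun i => lev_nonneg hU (by linarith) K i
  have hτs : ∀ i, 3 * τ (i + 1) ≤ τ i := fun i => lev_succ_le hU hG K i
  have hd0 : ∀ i, 0 ≤ d i := fun i =>
    sub_nonneg.2 (piece_mono (hτ0 _) (by linarith [hτs i, hτ0 (i+1)]) hba)
  have hsum0 : 0 ≤ ∑ i ∈ range (K + 1), |d i| ^ p :=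
    sum_nonneg fun i _ => Real.rpow_nonneg (abs_nonneg _) _
  set Mx := max |a| |b| with hMx
  rcases eq_or_lt_of_le ((abs_nonneg a).trans (le_max_left |a| |b|)) with h0 | h0
  · have ea : a = 0 := abs_nonpos_iff.1 (h0 ▸ le_max_left |a| |b|)
    have eb : b = 0 := abs_nonpos_iff.1 (h0 ▸ le_max_right |a| |b|)
    rw [ea, eb, sub_zero, abs_zero, Real.zero_rpow (by linarith)]
    exact mul_nonneg (by positivity) (sum_nonneg fun i _ => Real.rpow_nonneg (abs_nonneg _) _)
  have hlast : τ (K + 1) = 0 := if_neg (by omega)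
  have hex : ∃ i, τ (i + 1) < Mx := ⟨K, by rw [hlast]; exact h0⟩
  set j := Nat.find hex with hj
  have hjK : j ≤ K := Nat.find_min' hex (by rw [hlast]; exact h0)
  have hj1 : τ (j + 1) < Mx := Nat.find_spec hex
  have hj0 : Mx ≤ τ j := by
    rcases Nat.eq_zero_or_pos j with h | h
    · rw [h]; simp only [hτ, lev, zero_le, if_true, pow_zero, div_one]; exact max_le ha hb
    · have := Nat.find_min hex (show j - 1 < j by omega)
      rw [not_lt, show j - 1 + 1 = j by omega] at this
      exact this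
  have e : a - b = d j + d (j + 1) + (cut (τ (j + 2)) a - cut (τ (j + 2)) b) := by
    simp only [hd, piece]
    rw [cut_of_small ((le_max_left _ _).trans hj0), cut_of_small ((le_max_right _ _).trans hj0)]
    ring
  have h12 := hτs (j + 1)
  have hs2 := hτ0 (j + 2)
  have hr : cut (τ (j + 2)) a - cut (τ (j + 2)) b ≤ d (j + 1) := by
    have c1 := cut_abs hs2 a
    have c2 := cut_abs hs2 b
    rw [abs_le] at c1 c2
    rcases lt_max_iff.1 hj1 with h | h
    · have ha' : τ (j + 1) < a ∨ a < -τ (j + 1) := by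
        rcases lt_abs.1 h with h' | h'
        · exact Or.inl h'
        · exact Or.inr (by linarith)
      rcases ha' with h' | h'
      · rcases le_total (τ (j + 2)) b with hb' | hb'
        · have e1 : cut (τ (j + 2)) b = τ (j + 2) := by
            rw [cut, min_eq_left hb', max_eq_right (by linarith)]
          linarith [hd0 (j + 1)]
        · have e1 : piece (τ (j + 1)) (τ (j + 2)) b ≤ piece (τ (j + 1)) (τ (j + 2)) (τ (j + 2)) :=
            piece_mono hs2 (by linarith [h12]) hb'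
          have e2 : piece (τ (j + 1)) (τ (j + 2)) (τ (j + 2)) = 0 := by
            rw [piece, cut_of_small (by rw [abs_of_nonneg hs2]; linarith),
              cut_of_small (by rw [abs_of_nonneg hs2]), sub_self]
          have e3 : piece (τ (j + 1)) (τ (j + 2)) a = τ (j + 1) - τ (j + 2) := by
            rw [piece, cut, cut, min_eq_left h'.le, min_eq_left (by linarith), max_eq_right (by linarith),
              max_eq_right (by linarith)]
          simp only [hd]
          linarith
      · have e1 : cut (τ (j + 2)) a = -τ (j + 2) := by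
          rw [cut, max_eq_left]; exact (min_le_right _ _).trans (by linarith)
        linarith [hd0 (j + 1)]
    · have hb' : τ (j + 1) < b ∨ b < -τ (j + 1) := by
        rcases lt_abs.1 h with h' | h'
        · exact Or.inl h'
        · exact Or.inr (by linarith)
      rcases hb' with h' | h'
      · have e1 : cut (τ (j + 2)) b = τ (j + 2) := by
          rw [cut, min_eq_left (by linarith), max_eq_right (by linarith)]
        linarith [hd0 (j + 1)]
      · rcases le_total a (-τ (j + 2)) with ha' | ha'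
        · have e1 : cut (τ (j + 2)) a = -τ (j + 2) := by
            rw [cut, max_eq_left]; exact (min_le_right _ _).trans ha'
          linarith [hd0 (j + 1)]
        · have e1 : piece (τ (j + 1)) (τ (j + 2)) (-τ (j + 2)) ≤ piece (τ (j + 1)) (τ (j + 2)) a :=
            piece_mono hs2 (by linarith [h12]) ha'
          have e2 : piece (τ (j + 1)) (τ (j + 2)) (-τ (j + 2)) = 0 := by
            rw [piece, cut_of_small (by rw [abs_neg, abs_of_nonneg hs2]; linarith),
              cut_of_small (by rw [abs_neg, abs_of_nonneg hs2]), sub_self]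
          have e3 : piece (τ (j + 1)) (τ (j + 2)) b = -τ (j + 1) + τ (j + 2) := by
            rw [piece, cut, cut, max_eq_left ((min_le_right _ _).trans h'.le),
              max_eq_left ((min_le_right _ _).trans (by linarith))]
            ring
          simp only [hd]
          linarith
  have hjm : d j ^ p ≤ ∑ i ∈ range (K + 1), |d i| ^ p := by
    rw [← abs_of_nonneg (hd0 j)]
    exact single_le_sum (f := fun i => |d i| ^ p) (fun i _ => Real.rpow_nonneg (abs_nonneg _) _)
      (mem_range.2 (by omega))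
  have hj1m : d (j + 1) ^ p ≤ ∑ i ∈ range (K + 1), |d i| ^ p := by
    by_cases hK' : j + 1 ≤ K
    · rw [← abs_of_nonneg (hd0 (j + 1))]
      exact single_le_sum (f := fun i => |d i| ^ p) (fun i _ => Real.rpow_nonneg (abs_nonneg _) _)
        (mem_range.2 (by omega))
    · have e1 : τ (j + 1) = 0 := if_neg hK'
      have e2 : τ (j + 1 + 1) = 0 := if_neg (by omega)
      simp only [hd, piece, e1, e2, sub_self, Real.zero_rpow (show p ≠ 0 by linarith)]
      exact hsum0
  rw [abs_of_nonneg (sub_nonneg.2 hba)]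
  calc (a - b) ^ p ≤ (3 * max (d j) (d (j + 1))) ^ p := by
        refine Real.rpow_le_rpow (sub_nonneg.2 hba) ?_ (by linarith)
        linarith [le_max_left (d j) (d (j+1)), le_max_right (d j) (d (j+1))]
    _ = 3 ^ p * max (d j) (d (j + 1)) ^ p := Real.mul_rpow (by norm_num) ((hd0 j).trans (le_max_left _ _))
    _ ≤ _ := by
        refine mul_le_mul_of_nonneg_left ?_ (by positivity)
        rcases max_choice (d j) (d (j + 1)) with h | h <;> rw [h]
        · exact hjm
        · exact hj1m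

/-- The sampling size of one level. -/
noncomputable def levSize (p Λ : ℝ) (N : ℕ) (η φ : ℝ) : ℝ := 4 * Λ * N * ((2 * η) / φ) ^ p

lemma cut_smul {c η t : ℝ} (hc : 0 ≤ c) : c * cut η t = cut (c * η) (c * t) := by
  rw [cut, cut, mul_max_of_nonneg _ _ hc, mul_min_of_nonneg _ _ hc, mul_neg]

/-- The map of one level: sample coordinates, then hash. -/
theorem exists_level_map (hp : 1 ≤ p) {P : Type} [Fintype P] {N : ℕ} (hN : 1 ≤ N)
    (b : P → Fin N → ℝ) {U τ σ φ Λ : ℝ} (hU : 0 < U) (hφ : 0 < φ) (hφU : φ ≤ U)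
    (hb : ∀ e, nrm p (b e) ≤ U) (hτ : 0 < τ) (hσ0 : 0 ≤ σ) (hσ : σ ≤ τ)
    (hΛ : Real.log (2 * (Fintype.card (Option (P ⊕ P) × Option (P ⊕ P)) : ℝ)) ≤ Λ)
    (hΛ' : Real.log (2 * (Fintype.card (P × P) : ℝ)) ≤ Λ) (hΛ0 : 0 ≤ Λ)
    {q K0 M1 : ℕ} (hq : p ≤ q) (hK4 : 4 ≤ K0)
    (hK : levSize p Λ N τ φ + 2 ≤ K0 ∨
      (0 < σ ∧ 8 * Λ * ((3 * U / σ) * (2 * τ / φ)) ^ p ≤ K0))
    (hM11 : 1 ≤ M1) (hM1 : 6 * (2 * (K0:ℝ)) ^ q * Λ ≤ M1) :
    ∃ F : P → Fin M1 × Fin (24 * K0 ^ 2 * (2 * K0) ^ q) → ℝ, ∀ e0 e1,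
      nrm p (F e0 - F e1)
        ≤ 6 * max (nrm p ((fun k => piece τ σ (b e0 k)) - fun k => piece τ σ (b e1 k))) φ ∧
      (φ ≤ nrm p ((fun k => piece τ σ (b e0 k)) - fun k => piece τ σ (b e1 k)) →
        nrm p ((fun k => piece τ σ (b e0 k)) - fun k => piece τ σ (b e1 k)) / 6
          ≤ nrm p (F e0 - F e1)) := by
  classical
  have hp0 : 0 < p := by linarith
  have hNr : (0:ℝ) < N := by exact_mod_cast hN
  set x := levSize p Λ N τ φ with hx
  have hx0 : 0 ≤ x := by
    rw [hx, levSize]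
    exact mul_nonneg (by positivity) (Real.rpow_nonneg (by positivity) p)
  set M2 := ⌈x⌉₊ + 1 with hM2
  have hxM : x ≤ M2 := (Nat.le_ceil x).trans (by rw [hM2]; push_cast; linarith)
  have hM2x : (M2:ℝ) ≤ x + 2 := by rw [hM2]; push_cast; linarith [Nat.ceil_lt_add_one hx0]
  let s : Option (P ⊕ P) → Fin N → ℝ := fun o => o.elim 0
    (Sum.elim (fun e k => cut τ (b e k)) (fun e k => piece τ σ (b e k)))
  have hs : ∀ o k, |s o k| ≤ τ := by
    intro o k
    match o with
    | none => simp only [s, Option.elim, Pi.zero_apply, abs_zero]; exact hτ.le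
    | some (Sum.inl e) => exact cut_abs hτ.le _
    | some (Sum.inr e) =>
      simp only [s, Option.elim, Sum.elim_inr]
      rw [piece_eq hσ0 hσ]
      have h1 := soft_lip hσ0 (cut τ (b e k)) 0
      rw [cut_of_small (t := (0:ℝ)) (by rw [abs_zero]; exact hσ0), sub_self, sub_zero, sub_zero] at h1
      exact h1.trans (cut_abs hτ.le _)
  obtain ⟨ω, hω⟩ := exists_coord_pick hp s hN hτ hφ hs (M := M2) (by omega)
    (le_trans (le_trans (mul_le_mul_of_nonneg_right (mul_le_mul_of_nonneg_right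
      (mul_le_mul_of_nonneg_left hΛ (by norm_num)) (Nat.cast_nonneg N))
      (Real.rpow_nonneg (by positivity) p)) (le_of_eq (by rw [hx, levSize]))) hxM)
  set c := ((N:ℝ) / M2) ^ (1 / p) with hc
  have hM2r : (0:ℝ) < M2 := by exact_mod_cast (show 0 < M2 by omega)
  have hc0 : 0 < c := Real.rpow_pos_of_pos (by positivity) _
  set v : P → Fin M2 → ℝ := fun e l => c * cut τ (b e (ω l)) with hv
  set h : P → Fin M2 → ℝ := fun e l => c * piece τ σ (b e (ω l)) with hh
  have hsoft : ∀ e l, h e l = v e l - cut (c * σ) (v e l) := by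
    intro e l
    simp only [hh, hv, piece_eq hσ0 hσ, ← cut_smul hc0.le, mul_sub]
  have hvn : ∀ e, nrm p (v e) ≤ 3 * U := by
    intro e
    have h1 := (hω (some (Sum.inl e)) none).1
    have e1 : ((fun l => c * s (some (Sum.inl e)) (ω l)) - fun l => c * s none (ω l)) = v e := by
      funext l; simp [s, hv]
    have e2 : s (some (Sum.inl e)) - s none = fun k => cut τ (b e k) := by
      funext k; simp [s]
    rw [e1, e2] at h1
    refine h1.trans (mul_le_mul_of_nonneg_left (max_le ((nrm_mono hp fun k => ?_).trans (hb e)) hφU) (by norm_num))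
    have := cut_lip τ (b e k) 0
    rwa [cut_of_small (t := (0:ℝ)) (by rw [abs_zero]; exact hτ.le), sub_zero, sub_zero] at this
  have hsupp : ∀ e, (univ.filter fun l => h e l ≠ 0).card ≤ K0 := by
    intro e
    have htriv : (univ.filter fun l => h e l ≠ 0).card ≤ M2 :=
      (card_le_univ _).trans (le_of_eq (Fintype.card_fin _))
    rcases hK with hK | ⟨hσp, hK⟩
    · refine htriv.trans ?_
      exact_mod_cast hM2x.trans hK
    · by_cases hx2 : x ≤ 2
      · refine htriv.trans ?_
        have : (M2:ℝ) ≤ 4 := by linarith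
        exact le_trans (by exact_mod_cast this) hK4
      · have h1 := supp_card hp (U := 3 * U) (η := c * σ) (mul_pos hc0 hσp) (hvn e)
        simp only [← hsoft] at h1
        refine Nat.cast_le.1 (h1.trans (le_trans ?_ hK) : ((univ.filter fun l => h e l ≠ 0).card : ℝ) ≤ K0)
        rw [show 3 * U / (c * σ) = (3 * U / σ) / c by field_simp, Real.div_rpow (by positivity) hc0.le,
          Real.mul_rpow (by positivity) (by positivity), hc, ← Real.rpow_mul (by positivity), one_div,
          inv_mul_cancel₀ hp0.ne', Real.rpow_one, div_div_eq_mul_div, mul_div_assoc,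
          mul_left_comm (8 * Λ)]
        refine mul_le_mul_of_nonneg_left ?_ (Real.rpow_nonneg (by positivity) p)
        rw [div_le_iff₀ hNr]
        have : (M2:ℝ) ≤ 2 * x := by linarith
        refine this.trans (le_of_eq ?_)
        rw [hx, levSize]; ring
  obtain ⟨F, hF⟩ := exists_hash hp h (q := q) (K := K0) hq (by omega) hsupp hM11
    (le_trans (mul_le_mul_of_nonneg_left hΛ' (by positivity)) hM1)
  refine ⟨F, fun e0 e1 => ?_⟩
  obtain ⟨a1, a2⟩ := hF e0 e1
  obtain ⟨b1, b2⟩ := hω (some (Sum.inr e0)) (some (Sum.inr e1))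
  have e1' : ((fun l => c * s (some (Sum.inr e0)) (ω l)) - fun l => c * s (some (Sum.inr e1)) (ω l))
      = h e0 - h e1 := by funext l; simp [s, hh]
  have e2' : s (some (Sum.inr e0)) - s (some (Sum.inr e1))
      = (fun k => piece τ σ (b e0 k)) - fun k => piece τ σ (b e1 k) := by funext k; simp [s]
  rw [e1', e2'] at b1 b2
  refine ⟨by linarith, fun hge => ?_⟩
  have := b2 hge
  linarith

/-- Features from the multilevel map; the constants do not depend on the number of levels. -/
theorem feat_of_levels (hp : 1 ≤ p) {n N : ℕ} {D : Fin n → Fin n → ℝ} (hN : 1 ≤ N)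
    (X : Fin n → Fin N → ℝ) (hDX : D = fun x y => nrm p (X x - X y))
    {q K K0 M1 : ℕ} (hq : p ≤ q) {G Rat Λ : ℝ} (hG : 3 ≤ G) (hRat : 1 ≤ Rat)
    (hΛ : Real.log (2 * (2 * ((n:ℝ) + 1) + 1) ^ 2) ≤ Λ)
    (hGK : 16 * (N:ℝ) * Rat * ((K:ℝ) + 1) ≤ G ^ K)
    (hK0 : 8 * Λ * (48 * Rat * ((K:ℝ) + 1) * G) ^ q + 4 ≤ K0)
    (hM11 : 1 ≤ M1) (hM1 : 6 * (2 * (K0:ℝ)) ^ q * Λ ≤ M1) :
    Feat p D ((K + 1) * (M1 * (24 * K0 ^ 2 * (2 * K0) ^ q))) Rat := by
  classical
  intro z U fl hU hfl hrat
  have hp0 : 0 < p := by linarith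
  set U' := max U fl with hU'
  have hU'0 : 0 < U' := lt_max_of_lt_left hU
  have hrat' : U' / fl ≤ Rat := by
    rw [div_le_iff₀ hfl]
    rw [div_le_iff₀ hfl] at hrat
    exact max_le hrat (le_mul_of_one_le_left hfl.le hRat)
  set φ := fl / (8 * ((K:ℝ) + 1)) with hφ
  have hφ0 : 0 < φ := by positivity
  have hφfl : φ ≤ fl := div_le_self hfl.le (by linarith [(Nat.cast_nonneg K : (0:ℝ) ≤ K)])
  have hρ : U' / φ ≤ 8 * ((K:ℝ) + 1) * Rat := by
    rw [hφ, div_div_eq_mul_div, mul_comm U', mul_div_assoc]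
    exact mul_le_mul_of_nonneg_left hrat' (by positivity)
  let a : Option (Fin n) → Fin N → ℝ := fun o => o.elim 0 (fun u => X u - X z)
  set b : Option (Fin n) → Fin N → ℝ := fun e => retr p U' (a e) with hb
  have hbn : ∀ e, nrm p (b e) ≤ U' := fun e => retr_norm hp hU'0 (a e)
  have hbk : ∀ e k, |b e k| ≤ U' := fun e k => by
    refine le_trans ?_ (hbn e)
    refine le_nrm_of_le_psum hp (abs_nonneg _) ?_
    exact single_le_sum (f := fun k => |b e k| ^ p) (fun j _ => Real.rpow_nonneg (abs_nonneg _) _)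
      (mem_univ k)
  have hn0 : (0:ℝ) ≤ n := Nat.cast_nonneg n
  have hΛ0 : 0 ≤ Λ := le_trans (Real.log_nonneg (by nlinarith)) hΛ
  have hK4 : 4 ≤ K0 := by
    have : (0:ℝ) ≤ 8 * Λ * (48 * Rat * ((K:ℝ) + 1) * G) ^ q := by positivity
    exact_mod_cast (show (4:ℝ) ≤ K0 by linarith)
  have hbase : 1 ≤ 48 * Rat * ((K:ℝ) + 1) * G :=
    one_le_mul_of_one_le_of_one_le (one_le_mul_of_one_le_of_one_le (by linarith)
      (by linarith [(Nat.cast_nonneg K : (0:ℝ) ≤ K)])) (by linarith)
  have hG0 : (0:ℝ) < G := by linarith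
  set τ : ℕ → ℝ := fun i => lev U' G K i with hτdef
  have hlevel : ∀ i : Fin (K + 1), ∃ F : Option (Fin n) → Fin M1 × Fin (24 * K0 ^ 2 * (2 * K0) ^ q) → ℝ,
      ∀ e0 e1, nrm p (F e0 - F e1)
        ≤ 6 * max (nrm p ((fun k => piece (τ i) (τ (i + 1)) (b e0 k))
          - fun k => piece (τ i) (τ (i + 1)) (b e1 k))) φ ∧
      (φ ≤ nrm p ((fun k => piece (τ i) (τ (i + 1)) (b e0 k))
          - fun k => piece (τ i) (τ (i + 1)) (b e1 k)) →
        nrm p ((fun k => piece (τ i) (τ (i + 1)) (b e0 k))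
          - fun k => piece (τ i) (τ (i + 1)) (b e1 k)) / 6 ≤ nrm p (F e0 - F e1)) := by
    intro i
    have hi : (i:ℕ) ≤ K := Nat.lt_succ_iff.1 i.isLt
    have hτi : τ i = U' / G ^ (i:ℕ) := if_pos hi
    have hτ0 : 0 < τ i := by rw [hτi]; positivity
    refine exists_level_map hp hN b hU'0 hφ0 (hφfl.trans (le_max_right _ _)) hbn hτ0
      (lev_nonneg hU'0.le hG0.le _ _)
      (by linarith [lev_succ_le hU'0.le hG K (i:ℕ), lev_nonneg (U := U') hU'0.le hG0.le K ((i:ℕ) + 1)])
      (Λ := Λ) ?_ ?_ hΛ0 hq hK4 ?_ hM11 hM1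
    · refine le_trans (le_of_eq ?_) hΛ
      simp only [Fintype.card_prod, Fintype.card_option, Fintype.card_sum, Fintype.card_fin]
      push_cast; ring_nf
    · refine le_trans (Real.log_le_log ?_ ?_) hΛ
      · simp only [Fintype.card_prod, Fintype.card_option, Fintype.card_fin]; positivity
      · simp only [Fintype.card_prod, Fintype.card_option, Fintype.card_fin]
        push_cast; nlinarith
    · by_cases hiK : (i:ℕ) + 1 ≤ K
      · right
        have hs1 : lev U' G K ((i:ℕ) + 1) = U' / G ^ ((i:ℕ) + 1) := if_pos hiK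
        simp only [hτdef]
        rw [hs1]
        refine ⟨by positivity, le_trans ?_ (le_trans (le_add_of_nonneg_right (by norm_num)) hK0)⟩
        refine mul_le_mul_of_nonneg_left ?_ (by positivity)
        simp only [hτdef] at hτi
        rw [hτi]
        have e : 3 * U' / (U' / G ^ ((i:ℕ) + 1)) * (2 * (U' / G ^ (i:ℕ)) / φ) = 6 * G * (U' / φ) := by
          rw [pow_succ]; field_simp; ring
        rw [e, ← Real.rpow_natCast (48 * Rat * ((K:ℝ) + 1) * G)]
        refine le_trans (Real.rpow_le_rpow (by positivity) ?_ hp0.le)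
          (Real.rpow_le_rpow_of_exponent_le hbase hq)
        refine (mul_le_mul_of_nonneg_left hρ (by positivity)).trans (le_of_eq ?_)
        ring
      · left
        have hKi : (i:ℕ) = K := by omega
        rw [hτi, hKi, levSize]
        have h1 : (N:ℝ) * (2 * (U' / G ^ K) / φ) ≤ 1 := by
          rw [show (N:ℝ) * (2 * (U' / G ^ K) / φ) = 2 * N * (U' / φ) / G ^ K by ring,
            div_le_one (by positivity)]
          refine le_trans ?_ hGK
          refine (mul_le_mul_of_nonneg_left hρ (by positivity)).trans (le_of_eq ?_)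
          ring
        have hN1 : (1:ℝ) ≤ N := by exact_mod_cast hN
        have hy0 : (0:ℝ) ≤ 2 * (U' / G ^ K) / φ := by positivity
        have hy1 : 2 * (U' / G ^ K) / φ ≤ 1 := le_trans (le_mul_of_one_le_left hy0 hN1) h1
        have h2 : (2 * (U' / G ^ K) / φ) ^ p ≤ 2 * (U' / G ^ K) / φ := Real.rpow_le_self_of_le_one hy0 hy1 hp
        have h3 : 4 * Λ * N * (2 * (U' / G ^ K) / φ) ^ p ≤ 4 * Λ := by
          rw [mul_assoc]
          exact mul_le_of_le_one_right (by positivity)
            ((mul_le_mul_of_nonneg_left h2 (Nat.cast_nonneg N)).trans h1)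
        have h4 : 1 ≤ (48 * Rat * ((K:ℝ) + 1) * G) ^ q := one_le_pow₀ hbase
        have h5 := mul_le_mul_of_nonneg_left h4 (show 0 ≤ 8 * Λ by linarith)
        linarith
  choose F hF using hlevel
  let ι := Fin (K + 1) × (Fin M1 × Fin (24 * K0 ^ 2 * (2 * K0) ^ q))
  have hι : Fintype.card ι = (K + 1) * (M1 * (24 * K0 ^ 2 * (2 * K0) ^ q)) := by simp [ι]
  let en := Fintype.equivFinOfCardEq hι
  let Φ : Option (Fin n) → Fin ((K + 1) * (M1 * (24 * K0 ^ 2 * (2 * K0) ^ q))) → ℝ :=
    fun e k => F (en.symm k).1 e (en.symm k).2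
  have hsum : ∀ e0 e1, nrm p (Φ e0 - Φ e1) ^ p = ∑ i, nrm p (F i e0 - F i e1) ^ p := by
    intro e0 e1
    rw [show Φ e0 - Φ e1 = fun k => (fun t : ι => (F t.1 e0 - F t.1 e1) t.2) (en.symm k) from rfl]
    rw [nrm_comp_equiv (p := p) en.symm (fun t : ι => (F t.1 e0 - F t.1 e1) t.2), nrm_rpow hp,
      Fintype.sum_prod_type]
    exact sum_congr rfl fun i _ => (nrm_rpow hp (F i e0 - F i e1)).symm
  set x : Option (Fin n) → Option (Fin n) → Fin (K + 1) → ℝ := fun e0 e1 i =>
    nrm p ((fun k => piece (τ i) (τ (i + 1)) (b e0 k)) - fun k => piece (τ i) (τ (i + 1)) (b e1 k)) with hx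
  have hxs : ∀ e0 e1, ∑ i, x e0 e1 i ^ p
      = ∑ k, ∑ i ∈ range (K + 1), |piece (τ i) (τ (i + 1)) (b e0 k) - piece (τ i) (τ (i + 1)) (b e1 k)| ^ p := by
    intro e0 e1
    rw [sum_comm (s := (univ : Finset (Fin N))), ← Fin.sum_univ_eq_sum_range]
    exact sum_congr rfl fun i _ => by simp only [hx, nrm_rpow hp, Pi.sub_apply]
  have hfl8 : ((K:ℝ) + 1) * φ ^ p ≤ (fl / 8) ^ p := by
    have e : fl / 8 = ((K:ℝ) + 1) * φ := by rw [hφ]; field_simp
    rw [e, Real.mul_rpow (by positivity) hφ0.le]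
    exact mul_le_mul_of_nonneg_right (Real.self_le_rpow_of_one_le
      (by linarith [(Nat.cast_nonneg K : (0:ℝ) ≤ K)]) hp) (Real.rpow_nonneg hφ0.le p)
  have hup : ∀ e0 e1, nrm p (Φ e0 - Φ e1) ≤ 6 * (nrm p (b e0 - b e1) + fl / 8) := by
    intro e0 e1
    have hB := nrm_nonneg (p := p) (b e0 - b e1)
    rw [← Real.rpow_le_rpow_iff (nrm_nonneg _) (by positivity) hp0, hsum,
      Real.mul_rpow (by norm_num) (by positivity)]
    refine le_trans ?_ (mul_le_mul_of_nonneg_left
      (Real.add_rpow_le_rpow_add hB (by positivity) hp) (by positivity))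
    calc ∑ i, nrm p (F i e0 - F i e1) ^ p ≤ ∑ i, 6 ^ p * (x e0 e1 i ^ p + φ ^ p) := by
          refine sum_le_sum fun i _ => ?_
          refine (Real.rpow_le_rpow (nrm_nonneg _) (hF i e0 e1).1 hp0.le).trans ?_
          rw [Real.mul_rpow (by norm_num) (le_max_of_le_right hφ0.le)]
          refine mul_le_mul_of_nonneg_left ?_ (by positivity)
          have := Real.rpow_nonneg (show 0 ≤ x e0 e1 i from nrm_nonneg _) p
          have := Real.rpow_nonneg hφ0.le p
          rcases max_choice (x e0 e1 i) φ with h | h <;> (simp only [hx] at h ⊢; rw [h])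
          · linarith
          · simp only [hx] at *; linarith
      _ = 6 ^ p * (∑ i, x e0 e1 i ^ p + ((K:ℝ) + 1) * φ ^ p) := by
          rw [← mul_sum, sum_add_distrib, sum_const, card_univ, Fintype.card_fin, nsmul_eq_mul]
          push_cast; ring
      _ ≤ 6 ^ p * (nrm p (b e0 - b e1) ^ p + (fl / 8) ^ p) := by
          refine mul_le_mul_of_nonneg_left (add_le_add ?_ hfl8) (by positivity)
          rw [hxs, nrm_rpow hp]
          exact sum_le_sum fun k _ => piece_psum_le hp hU'0.le hG K (hbk e0 k) (hbk e1 k)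
  have hlo : ∀ e0 e1, nrm p (b e0 - b e1) ≤ 3 * (6 * nrm p (Φ e0 - Φ e1) + fl / 8) := by
    intro e0 e1
    have hΦ := nrm_nonneg (p := p) (Φ e0 - Φ e1)
    rw [← Real.rpow_le_rpow_iff (nrm_nonneg _) (by positivity) hp0, nrm_rpow hp,
      Real.mul_rpow (by norm_num) (by positivity)]
    refine le_trans (sum_le_sum fun k _ => le_piece_psum hp hU'0.le hG K (hbk e0 k) (hbk e1 k)) ?_
    rw [← mul_sum, ← hxs]
    refine mul_le_mul_of_nonneg_left ?_ (by positivity)
    refine le_trans ?_ (Real.add_rpow_le_rpow_add (by positivity) (by positivity) hp)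
    rw [Real.mul_rpow (by norm_num) hΦ, hsum, mul_sum]
    calc ∑ i, x e0 e1 i ^ p ≤ ∑ i : Fin (K + 1), (6 ^ p * nrm p (F i e0 - F i e1) ^ p + φ ^ p) := by
          refine sum_le_sum fun i _ => ?_
          have hxi : 0 ≤ x e0 e1 i := nrm_nonneg _
          have h1 := Real.rpow_nonneg hφ0.le p
          rw [← Real.mul_rpow (by norm_num) (nrm_nonneg _)]
          have h2 := Real.rpow_nonneg (mul_nonneg (by norm_num : (0:ℝ) ≤ 6) (nrm_nonneg (p := p) (F i e0 - F i e1))) p
          by_cases hc : φ ≤ x e0 e1 i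
          · have h3 := Real.rpow_le_rpow hxi (show x e0 e1 i ≤ 6 * nrm p (F i e0 - F i e1) by
              have := (hF i e0 e1).2 hc
              simp only [hx] at *
              linarith) hp0.le
            linarith
          · have h3 := Real.rpow_le_rpow hxi (not_le.1 hc).le hp0.le
            linarith
      _ ≤ _ := by
          rw [sum_add_distrib, sum_const, card_univ, Fintype.card_fin, nsmul_eq_mul]
          push_cast
          linarith
  have hd : ∀ u u', nrm p (a (some u) - a (some u')) = D u u' := fun u u' => by simp [a, hDX]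
  have hz : ∀ u, nrm p (a (some u)) = D u z := fun u => by simp [a, hDX]
  refine ⟨fun u => Φ (some u) - Φ none, fun u u' => ?_, fun u => ?_, fun u u' h0 h1 h2 => ?_⟩
  · rw [sub_sub_sub_cancel_right]
    have h1 := hup (some u) (some u')
    have h2 := retr_lip hp hU'0 (a (some u)) (a (some u'))
    rw [hd] at h2
    simp only [hb] at h1
    linarith [le_max_left (D u u') fl, le_max_right (D u u') fl]
  · have h1 := hup (some u) none
    have h2 := retr_lip hp hU'0 (a (some u)) (a none)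
    rw [show a (some u) - a none = a (some u) by simp [a], hz] at h2
    simp only [hb] at h1
    linarith [le_max_left (D u z) fl, le_max_right (D u z) fl]
  · rw [sub_sub_sub_cancel_right]
    have h3 := hlo (some u) (some u')
    have e : b (some u) - b (some u') = a (some u) - a (some u') := by
      simp only [hb, retr]
      rw [if_pos (by rw [hz]; exact h0.trans (le_max_left _ _)),
        if_pos (by rw [hz]; exact h1.trans (le_max_left _ _))]
    rw [e, hd] at h3
    linarith [nrm_nonneg (p := p) (Φ (some u) - Φ (some u'))]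

end Vale.Agent.P249.Eps
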