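import Vale.Agent.P249.Eps.Select

namespace Vale.Agent.P249.Eps

open Finset Vale.Agent.P249.Sub

/-- A sum over geometrically separated small scales is bounded by the threshold. -/
lemma sum_small_scales {s0 X : ℝ} (hs0 : 0 < s0) (hX : 0 ≤ X) {Bn : ℕ} (e : Fin Bn → ℕ)
    (he : Function.Injective e) :
    ∑ b ∈ univ.filter (fun b => s0 * 8 ^ e b ≤ X), s0 * 8 ^ e b ≤ 2 * X := by
  classical
  set S := univ.filter (fun b => s0 * 8 ^ e b ≤ X)
  rcases S.eq_empty_or_nonempty with h | h
  · rw [h, sum_empty]; positivity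
  obtain ⟨m, hm, hmax⟩ := exists_max_image S e h
  have hmX := (mem_filter.1 hm).2
  calc ∑ b ∈ S, s0 * 8 ^ e b = s0 * 8 ^ e m * ∑ b ∈ S, (1 / 8 : ℝ) ^ (e m - e b) := by
        rw [mul_sum]
        refine sum_congr rfl fun b hb => ?_
        rw [div_pow, one_pow, mul_one_div, eq_div_iff (by positivity), mul_assoc, ← pow_add,
          show e b + (e m - e b) = e m by have := hmax b hb; omega]
    _ ≤ s0 * 8 ^ e m * 2 := by
        refine mul_le_mul_of_nonneg_left ?_ (by positivity)
        have hinj : Set.InjOn (fun b => e m - e b) (S : Set (Fin Bn)) := fun a ha b hb hab => he (by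
          have := hmax a ha
          have := hmax b hb
          have hab' : e m - e a = e m - e b := hab
          omega)
        rw [← sum_image hinj]
        refine le_trans ((summable_geometric_of_lt_one (by norm_num) (by norm_num)).sum_le_tsum _
          fun i _ => by positivity) ?_
        rw [tsum_geometric_of_lt_one (by norm_num) (by norm_num)]
        norm_num
    _ ≤ _ := by linarith

variable {p : ℝ} {n : ℕ} {D : Fin n → Fin n → ℝ}

/-- The sum of the smoothing bounds over the bands above a pair. -/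
lemma sum_bandL_le (hD : IsDist D) {s0 : ℝ} (hs0 : 0 < s0) {W : ℕ} (hW : 1 ≤ W) {T : ℝ} (hT : 2 ≤ T)
    (hlog : Real.log n ≤ T * W) {Bn : ℕ} (i : Fin Bn → Fin W) (x y : Fin n) :
    ∑ b ∈ univ.filter (fun b : Fin Bn => D x y ≤ pfac T * scale s0 W b (i b)), bandL D s0 W b x y
      ≤ 20 * (20 * T + 350) * D x y := by
  classical
  set R : ℝ := (8:ℝ) ^ W with hR
  have hR1 : 1 < R := one_lt_pow₀ (by norm_num) (by omega)
  set r := D x y with hr
  have hr0 : 0 ≤ r := hD.nonneg x y
  have hWr : (0:ℝ) < W := by exact_mod_cast hW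
  set S := univ.filter (fun b : Fin Bn => r ≤ pfac T * scale s0 W b (i b))
  set cnt : Fin Bn → ℕ := fun b =>
    (univ.filter fun i' : Fin W => scale s0 W b i' / R ^ 4 < 16 * r).card with hcnt
  have hgrow : ∑ b ∈ S, ∑ i' : Fin W, grow D x (scale s0 W b i' / R ^ 4) ≤ T * W := by
    refine le_trans (sum_le_sum_of_subset_of_nonneg (subset_univ _) fun b _ _ => sum_nonneg fun i' _ =>
      grow_nonneg hD x (by unfold scale; positivity)) (le_trans ?_ hlog)
    have e : ∀ (b : Fin Bn) (i' : Fin W), scale s0 W b i' / R ^ 4 = s0 / R ^ 4 * 8 ^ (W * (b:ℕ) + i') :=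
      fun b i' => by rw [scale]; ring
    simp only [e]
    exact sum_grow_le hD x (by positivity) W Bn
  have hcard : (S.filter fun b => cnt b ≠ 0).card ≤ 5 := by
    rcases (S.filter fun b => cnt b ≠ 0).eq_empty_or_nonempty with h | h
    · simp [h]
    obtain ⟨m, hm, hmin⟩ := exists_min_image _ (fun b : Fin Bn => (b:ℕ)) h
    have hm1 := (mem_filter.1 (mem_filter.1 hm).1).2
    have key : ∀ b ∈ (S.filter fun b => cnt b ≠ 0), (b:ℕ) ∈ Finset.Icc (m:ℕ) ((m:ℕ) + 4) := by
      intro b hb
      refine Finset.mem_Icc.2 ⟨hmin b hb, ?_⟩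
      have hb2 := (mem_filter.1 hb).2
      simp only [hcnt, ne_eq, card_eq_zero, ← nonempty_iff_ne_empty] at hb2
      obtain ⟨i', hi'⟩ := hb2
      have h1 := (mem_filter.1 hi').2
      have h2 := (scale_bounds hs0 b i').1
      have h3 := (scale_bounds hs0 m (i m)).2
      rw [← hR] at h2 h3
      rw [div_lt_iff₀ (by positivity)] at h1
      have hp16 : 16 * pfac T ≤ 1 := by
        rw [pfac, mul_one_div, div_le_one (by positivity)]; linarith
      have h4 : 16 * r ≤ s0 * R ^ ((m:ℕ) + 1) := by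
        have a1 := mul_le_mul_of_nonneg_right hp16 (show 0 ≤ scale s0 W m (i m) by unfold scale; positivity)
        linarith
      have h5 : s0 * R ^ (b:ℕ) < s0 * R ^ ((m:ℕ) + 5) := by
        calc s0 * R ^ (b:ℕ) ≤ scale s0 W b i' := h2
          _ < 16 * r * R ^ 4 := h1
          _ ≤ s0 * R ^ ((m:ℕ) + 1) * R ^ 4 := mul_le_mul_of_nonneg_right h4 (by positivity)
          _ = _ := by ring
      have := (pow_lt_pow_iff_right₀ hR1).1 (lt_of_mul_lt_mul_left h5 hs0.le)
      omega
    have := card_le_card_of_injOn (fun b : Fin Bn => (b:ℕ)) key (fun a _ b _ h => Fin.ext h)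
    rw [Nat.card_Icc] at this
    omega
  have hsumcnt : (∑ b ∈ S, (cnt b : ℝ)) ≤ 5 * W := by
    have h1 : ∑ b ∈ S, cnt b ≤ 5 * W := by
      rw [← sum_filter_ne_zero]
      refine (sum_le_card_nsmul _ _ W fun b _ => ?_).trans (Nat.mul_le_mul_right W hcard)
      exact (card_le_univ _).trans (le_of_eq (Fintype.card_fin W))
    exact_mod_cast h1
  calc ∑ b ∈ S, bandL D s0 W b x y
      = 20 * r / W * (20 * ∑ b ∈ S, ∑ i' : Fin W, grow D x (scale s0 W b i' / R ^ 4)
          + 70 * ∑ b ∈ S, (cnt b : ℝ)) := by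
        simp only [bandL, ← hr, ← hR, mul_add, sum_add_distrib, mul_sum, hcnt]
    _ ≤ 20 * r / W * (20 * (T * W) + 70 * (5 * W)) := by
        refine mul_le_mul_of_nonneg_left ?_ (by positivity)
        linarith
    _ = _ := by field_simp; ring

/-- One dimension reduction step. -/
theorem exists_step (hp : 1 ≤ p) {q : ℕ} (hq : p ≤ q) (hD : IsDist D) {W : ℕ} (hW : 1 ≤ W)
    {T : ℝ} (hT : 2 ≤ T) (hlog : Real.log n ≤ T * W) (hR : 4800 ≤ (8:ℝ) ^ W)
    (hRT : 32 * T ≤ (8:ℝ) ^ W) {M : ℕ} (hF : Feat p D M (4 * ((8:ℝ) ^ W) ^ 5))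
    {L Ms : ℕ} (hL1 : 1 ≤ L) (hL : 24 * (n:ℝ) ≤ Real.exp L) (hMs : 1 ≤ Ms)
    (hMq : (L:ℝ) ^ q * Real.log (2 * ((n:ℝ) ^ 2 + n)) ≤ Ms)
    (hMp : 32 * Real.log (2 * ((n:ℝ) ^ 2 + n)) ≤ Ms) :
    ∃ f : Fin n → Fin Ms × Fin M → ℝ, ∀ x y,
      D x y / 1440 ≤ nrm p (f x - f y) ∧
        nrm p (f x - f y) ≤ 12000 * T * (2 ^ q * (1 + 12 * q.factorial)) * D x y := by
  classical
  set J := ⌈32 * T⌉₊ with hJdef
  have hJ : 32 * T ≤ (J:ℝ) := Nat.le_ceil _
  set R : ℝ := (8:ℝ) ^ W with hRdef
  have hR1 : 1 < R := by linarith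
  obtain ⟨δ, hδ, hδmin⟩ : ∃ δ > (0:ℝ), ∀ x y, x ≠ y → δ < D x y := by
    rcases (univ.filter fun e : Fin n × Fin n => e.1 ≠ e.2).eq_empty_or_nonempty with h | h
    · refine ⟨1, one_pos, fun x y hxy => ?_⟩
      have hm : (x, y) ∈ univ.filter (fun e : Fin n × Fin n => e.1 ≠ e.2) := mem_filter.2 ⟨mem_univ _, hxy⟩
      rw [h] at hm
      exact absurd hm (notMem_empty _)
    · obtain ⟨e, he, hmin⟩ := exists_min_image _ (fun e : Fin n × Fin n => D e.1 e.2) h
      have := hD.pos e.1 e.2 (mem_filter.1 he).2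
      exact ⟨D e.1 e.2 / 2, by positivity, fun x y hxy =>
        lt_of_lt_of_le (half_lt_self this) (hmin (x, y) (mem_filter.2 ⟨mem_univ _, hxy⟩))⟩
  obtain ⟨B0, hB0⟩ := pow_unbounded_of_one_lt (R * (∑ x, ∑ y, D x y) / δ) hR1
  have hsum : ∀ x y, D x y ≤ ∑ x, ∑ y, D x y := fun x y =>
    (single_le_sum (f := fun y => D x y) (fun v _ => hD.nonneg x v) (mem_univ y)).trans
      (single_le_sum (f := fun x => ∑ y, D x y) (fun u _ => sum_nonneg fun v _ => hD.nonneg u v) (mem_univ x))
  have hex : ∀ x y, ∃ b : Fin (B0 + 1), x ≠ y →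
      δ * R ^ (b:ℕ) / R ^ 2 < D x y ∧ D x y ≤ δ * R ^ (b:ℕ) / R := by
    intro x y
    by_cases hxy : x = y
    · exact ⟨0, fun h => absurd hxy h⟩
    have hR0 : 0 < R := by linarith
    have hB : D x y ≤ δ * R ^ B0 / R := by
      rw [le_div_iff₀ hR0]
      rw [div_lt_iff₀ hδ] at hB0
      have := mul_le_mul_of_nonneg_left (hsum x y) hR0.le
      linarith
    have hEx : ∃ b, D x y ≤ δ * R ^ b / R := ⟨B0, hB⟩
    refine ⟨⟨Nat.find hEx, by have := Nat.find_le (h := hEx) hB; omega⟩, fun _ => ⟨?_, Nat.find_spec hEx⟩⟩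
    simp only
    have hd := hδmin x y hxy
    rcases Nat.eq_zero_or_pos (Nat.find hEx) with h | h
    · have h0 := Nat.find_spec hEx
      rw [h] at h0
      have : δ * R ^ 0 / R ≤ δ := by rw [pow_zero, mul_one]; exact div_le_self hδ.le hR1.le
      linarith
    · have h1 := Nat.find_min hEx (show Nat.find hEx - 1 < Nat.find hEx by omega)
      rw [not_le] at h1
      refine lt_of_le_of_lt (le_of_eq ?_) h1
      rw [show Nat.find hEx = Nat.find hEx - 1 + 1 by omega, pow_succ, Nat.add_sub_cancel]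
      field_simp
  choose bnd hbnd using hex
  have hgs := fun b : Fin (B0 + 1) => exists_band hp hD hδ hW hT hR hRT hF J (b:ℕ)
  choose g hg1 hg2 hg3 hg4 using hgs
  let sg : Bool → ℝ := fun s => if s then 1 else -1
  have hsg : ∀ s, |sg s| = 1 := fun s => by cases s <;> simp [sg]
  let H : (Fin (B0 + 1) → Outc n W J) → Fin n → Fin M → ℝ := fun o x =>
    ∑ b, sg (o b).2 • g b (o b).1 x
  have hflip : ∀ x y o, x ≠ y → Pads D δ T W J (bnd x y) (o (bnd x y)).1 x →
      D x y / 60 ≤ nrm p (H o x - H o y) ∨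
      D x y / 60 ≤ nrm p (H (Function.update o (bnd x y) ((o (bnd x y)).1, !(o (bnd x y)).2)) x
        - H (Function.update o (bnd x y) ((o (bnd x y)).1, !(o (bnd x y)).2)) y) := by
    intro x y o hxy hpad
    obtain ⟨h1, h2⟩ := hbnd x y hxy
    have hlow := hg4 (bnd x y) (o (bnd x y)).1 x y hpad h1 h2
    set b0 := bnd x y
    set o' := Function.update o b0 ((o b0).1, !(o b0).2)
    set v : Fin M → ℝ := g b0 (o b0).1 x - g b0 (o b0).1 y
    have e : (H o x - H o y) - (H o' x - H o' y) = (2 * sg (o b0).2) • v := by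
      simp only [H, ← sum_sub_distrib]
      rw [sum_eq_single b0]
      · simp only [o', Function.update_self, v]
        cases (o b0).2 <;> simp [sg] <;> module
      · intro b _ hb
        simp only [o', Function.update_of_ne hb, sub_self]
      · intro h; exact absurd (mem_univ b0) h
    have h3 := nrm_sub_le hp (H o x - H o y) (H o' x - H o' y)
    rw [e, nrm_smul hp, abs_mul, hsg, abs_two, mul_one] at h3
    rcases le_total (nrm p (H o' x - H o' y)) (nrm p (H o x - H o y)) with h | h
    · exact Or.inl (by linarith)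
    · exact Or.inr (by linarith)
  obtain ⟨ω, hω1, hω2⟩ := exists_select hD hδ hW hT hJ hlog bnd
    (fun x y o => D x y / 60 ≤ nrm p (H o x - H o y)) (fun x y o hxy hp' => hflip x y o hxy hp')
    hL1 hL hMq hMp
  refine ⟨fun x q' => (Fintype.card (Fin Ms) : ℝ) ^ (-(1 / p)) * H (ω q'.1) x q'.2, fun x y => ?_⟩
  have ediff : (fun q' : Fin Ms × Fin M => (Fintype.card (Fin Ms) : ℝ) ^ (-(1 / p)) * H (ω q'.1) x q'.2)
      - (fun q' : Fin Ms × Fin M => (Fintype.card (Fin Ms) : ℝ) ^ (-(1 / p)) * H (ω q'.1) y q'.2)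
      = fun q' => (Fintype.card (Fin Ms) : ℝ) ^ (-(1 / p)) * (H (ω q'.1) x - H (ω q'.1) y) q'.2 := by
    funext q'; simp only [Pi.sub_apply]; ring
  simp only []
  rw [ediff]
  constructor
  · rcases eq_or_ne x y with hxy | hxy
    · rw [hxy, hD.self, zero_div]; exact nrm_nonneg _
    obtain ⟨s, hs1, hs2⟩ := hω2 x y hxy
    rw [show D x y / 1440 = (1 / 24 : ℝ) * (D x y / 60) by ring]
    exact le_nrm_avg hp (fun l => H (ω l) x - H (ω l) y) s
      (div_nonneg (hD.nonneg x y) (by norm_num)) (by norm_num) (by norm_num)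
      (by rw [Fintype.card_fin]; exact hMs) (by rw [Fintype.card_fin]; exact hs1) hs2
  · set r := D x y with hr
    have hr0 : 0 ≤ r := hD.nonneg x y
    have hT0 : 0 < T := by linarith
    have hper : ∀ o : Fin (B0 + 1) → Outc n W J,
        nrm p (H o x - H o y) ≤ 12000 * T * r * (1 + (count D δ T W J (B0 + 1) x o : ℝ)) := by
      intro o
      set S := univ.filter (fun b : Fin (B0 + 1) => r ≤ pfac T * scale δ W b (o b).1.1) with hS
      have e : H o x - H o y = ∑ b, sg (o b).2 • (g b (o b).1 x - g b (o b).1 y) := by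
        simp only [H, ← sum_sub_distrib, smul_sub]
      rw [e]
      refine (nrm_sum_le hp _ _).trans ?_
      simp only [nrm_smul hp, hsg, one_mul]
      rw [← sum_filter_add_sum_filter_not univ (fun b : Fin (B0 + 1) => r ≤ pfac T * scale δ W b (o b).1.1)]
      have hbig : ∑ b ∈ S, nrm p (g b (o b).1 x - g b (o b).1 y)
          ≤ 20 * (20 * T + 350) * r + 3840 * T * r * (count D δ T W J (B0 + 1) x o : ℝ) := by
        refine (sum_le_sum (g := fun b : Fin (B0 + 1) => bandL D δ W b x y
          + 3840 * T * r * (bad1 D δ T W J b x (o b) : ℝ)) fun b hb => ?_).trans ?_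
        · simp only [bad1]
          split_ifs with hpd
          · rw [Nat.cast_zero, mul_zero, add_zero]
            exact hg3 b _ x y hpd (mem_filter.1 hb).2
          · rw [Nat.cast_one, mul_one]
            exact hg2 b _ x y
        · rw [sum_add_distrib, ← mul_sum]
          refine add_le_add (sum_bandL_le hD hδ hW hT hlog (fun b => (o b).1.1) x y)
            (mul_le_mul_of_nonneg_left ?_ (by positivity))
          rw [count, Nat.cast_sum]
          exact sum_le_sum_of_subset_of_nonneg (subset_univ _) fun b _ _ => Nat.cast_nonneg _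
      have hsmall : ∑ b ∈ univ.filter (fun b : Fin (B0 + 1) => ¬ r ≤ pfac T * scale δ W b (o b).1.1),
          nrm p (g b (o b).1 x - g b (o b).1 y) ≤ 7680 * T * r := by
        refine (sum_le_sum (g := fun b : Fin (B0 + 1) => 120 * scale δ W b (o b).1.1) fun b _ =>
          (nrm_sub_le hp _ _).trans (by linarith [hg1 b (o b).1 x, hg1 b (o b).1 y])).trans ?_
        rw [← mul_sum]
        have hinj : Function.Injective fun b : Fin (B0 + 1) => W * (b:ℕ) + ((o b).1.1 : ℕ) := by
          intro a b hab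
          simp only at hab
          have h1 := (o a).1.1.isLt
          have h2 := (o b).1.1.isLt
          refine Fin.ext ?_
          have := congrArg (fun k => k / W) hab
          simp only [Nat.mul_add_div (show 0 < W by omega), Nat.div_eq_of_lt h1, Nat.div_eq_of_lt h2,
            add_zero] at this
          exact this
        have hX : ∀ b : Fin (B0 + 1), ¬ r ≤ pfac T * scale δ W b (o b).1.1 →
            δ * 8 ^ (W * (b:ℕ) + ((o b).1.1 : ℕ)) ≤ 32 * T * r := by
          intro b hb
          rw [not_le, pfac, scale, div_mul_eq_mul_div, one_mul, div_lt_iff₀ (by positivity)] at hb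
          linarith
        calc 120 * ∑ b ∈ univ.filter (fun b : Fin (B0 + 1) => ¬ r ≤ pfac T * scale δ W b (o b).1.1),
              scale δ W b (o b).1.1
            ≤ 120 * (2 * (32 * T * r)) := by
              refine mul_le_mul_of_nonneg_left ?_ (by norm_num)
              refine le_trans (sum_le_sum_of_subset_of_nonneg (fun b hb => mem_filter.2
                ⟨mem_univ b, hX b (mem_filter.1 hb).2⟩) fun b _ _ => by unfold scale; positivity) ?_
              exact sum_small_scales hδ (by positivity) _ hinj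
          _ = _ := by ring
      have hc0 : 0 ≤ T * r * (count D δ T W J (B0 + 1) x o : ℝ) := by positivity
      have hTr : 0 ≤ (T - 2) * r := mul_nonneg (by linarith) hr0
      linarith
    have hK1 : (1:ℝ) ≤ 2 ^ q * (1 + 12 * (q.factorial : ℝ)) :=
      one_le_mul_of_one_le_of_one_le (one_le_pow₀ (by norm_num))
        (le_add_of_nonneg_right (by positivity))
    refine nrm_le_of_psum_le hp (by positivity) ?_
    rw [Fintype.sum_prod_type, Fintype.card_fin]
    have hMr : (0:ℝ) < Ms := by exact_mod_cast hMs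
    have hA : 0 ≤ 12000 * T * r := by positivity
    have hterm : ∀ l, ∑ k, |(Ms:ℝ) ^ (-(1 / p)) * (H (ω l) x - H (ω l) y) k| ^ p
        ≤ (Ms:ℝ)⁻¹ * ((12000 * T * r) ^ p * (2 ^ q * (1 + (count D δ T W J (B0 + 1) x (ω l) : ℝ) ^ q))) := by
      intro l
      simp only [abs_mul, abs_of_nonneg (Real.rpow_nonneg hMr.le _),
        Real.mul_rpow (Real.rpow_nonneg hMr.le _) (abs_nonneg _), ← mul_sum]
      rw [← Real.rpow_mul hMr.le, neg_mul, one_div, inv_mul_cancel₀ (by linarith),
        Real.rpow_neg_one, ← nrm_rpow hp]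
      refine mul_le_mul_of_nonneg_left ?_ (by positivity)
      refine (Real.rpow_le_rpow (nrm_nonneg _) (hper (ω l)) (by linarith)).trans ?_
      set c : ℝ := (count D δ T W J (B0 + 1) x (ω l) : ℝ) with hc
      have hc0 : 0 ≤ c := Nat.cast_nonneg _
      rw [Real.mul_rpow hA (by positivity)]
      refine mul_le_mul_of_nonneg_left ?_ (Real.rpow_nonneg hA p)
      calc (1 + c) ^ p ≤ (1 + c) ^ (q:ℝ) := Real.rpow_le_rpow_of_exponent_le (by linarith) hq
        _ = (1 + c) ^ q := Real.rpow_natCast _ _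
        _ ≤ (2 * max 1 c) ^ q := pow_le_pow_left₀ (by positivity)
            (by linarith [le_max_left 1 c, le_max_right 1 c]) q
        _ = 2 ^ q * (max 1 c) ^ q := mul_pow _ _ _
        _ ≤ 2 ^ q * (1 + c ^ q) := by
            refine mul_le_mul_of_nonneg_left ?_ (by positivity)
            rcases max_choice 1 c with h | h <;> rw [h]
            · rw [one_pow]; linarith [pow_nonneg hc0 q]
            · linarith
    refine (sum_le_sum fun l _ => hterm l).trans ?_
    rw [← mul_sum, ← mul_sum, ← mul_sum, sum_add_distrib, sum_const, card_univ, Fintype.card_fin, nsmul_one]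
    calc (Ms:ℝ)⁻¹ * ((12000 * T * r) ^ p * (2 ^ q * ((Ms:ℝ) + ∑ l, (count D δ T W J (B0 + 1) x (ω l) : ℝ) ^ q)))
        ≤ (Ms:ℝ)⁻¹ * ((12000 * T * r) ^ p * (2 ^ q * ((Ms:ℝ) + 12 * q.factorial * Ms))) := by
          gcongr
          exact hω1 x
      _ = (12000 * T * r) ^ p * (2 ^ q * (1 + 12 * q.factorial)) := by field_simp
      _ ≤ (12000 * T * r) ^ p * (2 ^ q * (1 + 12 * (q.factorial:ℝ))) ^ p :=
          mul_le_mul_of_nonneg_left (Real.self_le_rpow_of_one_le hK1 hp) (Real.rpow_nonneg hA p)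
      _ = _ := by
          rw [← Real.mul_rpow hA (by positivity)]
          congr 1
          ring

end Vale.Agent.P249.Eps
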