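import Vale.Agent.P249.Upper
import Vale.Agent.P249.Eps.Step
import Vale.Agent.P249.Eps.Levels

namespace Vale.Agent.P249.Eps

open Finset MeasureTheory Vale.Agent.P249.Sub

variable {p : ℝ}

lemma log_pow_le (q ε : ℝ) (hq : 0 < q) (hε : 0 < ε) :
    ∃ C : ℝ, 0 ≤ C ∧ ∀ n : ℕ, 2 ≤ n → Real.log n ^ q ≤ C * (n:ℝ) ^ ε := by
  refine ⟨(q / ε) ^ q, Real.rpow_nonneg (by positivity) _, fun n hn => ?_⟩
  have h := Real.log_le_rpow_div (x := (n:ℝ)) (by positivity) (show 0 < ε / q by positivity)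
  calc Real.log n ^ q ≤ ((n:ℝ) ^ (ε / q) / (ε / q)) ^ q :=
        Real.rpow_le_rpow (Real.log_natCast_nonneg n) h hq.le
    _ = _ := by
        rw [div_eq_mul_inv, inv_div, Real.mul_rpow (by positivity) (by positivity),
          ← Real.rpow_mul (by positivity), div_mul_cancel₀ _ hq.ne', mul_comm]

lemma log_facts {n : ℕ} (hn : 2 ≤ n) :
    0.69 ≤ Real.log n ∧ Real.log (2 * ((n:ℝ) ^ 2 + n)) ≤ 4 * Real.log n ∧
      Real.log (2 * ((n:ℝ) + 1) ^ 2) ≤ 5 * Real.log n ∧ Real.log (24 * (n:ℝ)) ≤ 6 * Real.log n := by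
  have hn' : (2:ℝ) ≤ n := by exact_mod_cast hn
  have h2 : Real.log 2 ≤ Real.log n := Real.log_le_log (by norm_num) hn'
  have hlow := Real.log_two_gt_d9
  have hsq : 4 ≤ (n:ℝ) ^ 2 := by nlinarith
  refine ⟨by linarith, ?_, ?_, ?_⟩
  · rw [show 4 * Real.log n = Real.log ((n:ℝ) ^ 4) by rw [Real.log_pow]; norm_num]
    refine Real.log_le_log (by positivity) ?_
    have h4 : 4 * (n:ℝ) ^ 2 ≤ (n:ℝ) ^ 2 * (n:ℝ) ^ 2 := mul_le_mul_of_nonneg_right hsq (sq_nonneg _)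
    nlinarith
  · rw [show 5 * Real.log n = Real.log ((n:ℝ) ^ 5) by rw [Real.log_pow]; norm_num]
    refine Real.log_le_log (by positivity) ?_
    have h3 : 8 ≤ (n:ℝ) ^ 3 := by
      have := pow_le_pow_left₀ (by norm_num : (0:ℝ) ≤ 2) hn' 3
      linarith
    have h5 : 8 * (n:ℝ) ^ 2 ≤ (n:ℝ) ^ 3 * (n:ℝ) ^ 2 := mul_le_mul_of_nonneg_right h3 (sq_nonneg _)
    nlinarith
  · rw [Real.log_mul (by norm_num) (by positivity)]
    have : Real.log 24 ≤ 5 * Real.log 2 := by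
      rw [show 5 * Real.log 2 = Real.log ((2:ℝ) ^ 5) by rw [Real.log_pow]; norm_num]
      exact Real.log_le_log (by norm_num) (by norm_num)
    linarith

lemma Ms_bound {n q : ℕ} (hn : 2 ≤ n) :
    ((⌈((⌈Real.log (24 * (n:ℝ))⌉₊ + 1 : ℕ) : ℝ) ^ q * Real.log (2 * ((n:ℝ) ^ 2 + n))⌉₊
      + ⌈32 * Real.log (2 * ((n:ℝ) ^ 2 + n))⌉₊ + 1 : ℕ) : ℝ)
      ≤ (4 * 9 ^ q + 135 * (1 / 0.69) ^ q) * Real.log n ^ (q + 1) := by
  obtain ⟨hl, hΛ1, -, h24⟩ := log_facts hn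
  have hn1 : (2:ℝ) ≤ n := by exact_mod_cast hn
  set Λ' := Real.log (2 * ((n:ℝ) ^ 2 + n))
  set L0 : ℝ := ((⌈Real.log (24 * (n:ℝ))⌉₊ + 1 : ℕ) : ℝ) with hL0
  have hΛ'0 : 0 ≤ Λ' := Real.log_nonneg (by nlinarith)
  set l := Real.log n
  have hl0 : 0 ≤ l := by linarith
  have hL0b : L0 ≤ 9 * l := by
    rw [hL0]; push_cast
    linarith [Nat.ceil_lt_add_one (show 0 ≤ Real.log (24 * (n:ℝ)) from Real.log_nonneg (by linarith))]
  have hL00 : 0 ≤ L0 := Nat.cast_nonneg _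
  push_cast
  have a1 := (Nat.ceil_lt_add_one (show 0 ≤ L0 ^ q * Λ' by positivity)).le
  have a2 := (Nat.ceil_lt_add_one (show 0 ≤ 32 * Λ' by positivity)).le
  have a3 : L0 ^ q * Λ' ≤ (9 * l) ^ q * (4 * l) :=
    mul_le_mul (pow_le_pow_left₀ hL00 hL0b q) hΛ1 hΛ'0 (by positivity)
  have e : (9 * l) ^ q * (4 * l) = 4 * 9 ^ q * l ^ (q + 1) := by rw [mul_pow, pow_succ]; ring
  have h1 : l ≤ (1 / 0.69) ^ q * l ^ (q + 1) := by
    rw [pow_succ, ← mul_assoc, ← mul_pow]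
    exact le_mul_of_one_le_left hl0 (one_le_pow₀ (by linarith))
  linarith

lemma growth_le {n W0 : ℕ} (hn : 2 ≤ n) {T : ℝ} (hT : 0 < T) :
    (8:ℝ) ^ (⌈Real.log n / T⌉₊ + W0) ≤ 8 ^ (W0 + 1) * (n:ℝ) ^ (3 / T) := by
  have hn1 : (1:ℝ) ≤ n := by exact_mod_cast (show 1 ≤ n by omega)
  have hl : 0 ≤ Real.log n := Real.log_nonneg hn1
  have h80 : 0 ≤ Real.log 8 := Real.log_nonneg (by norm_num)
  have h8l : Real.log 8 ≤ 3 := by
    rw [show (8:ℝ) = 2 ^ 3 by norm_num, Real.log_pow]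
    have := Real.log_two_lt_d9
    push_cast; linarith
  rw [← Real.rpow_natCast, ← Real.rpow_natCast (8:ℝ) (W0 + 1), Real.rpow_def_of_pos (by norm_num),
    Real.rpow_def_of_pos (by norm_num : (0:ℝ) < 8), Real.rpow_def_of_pos (show (0:ℝ) < n by linarith),
    ← Real.exp_add]
  apply Real.exp_le_exp.2
  push_cast
  have a1 := mul_le_mul_of_nonneg_left (Nat.ceil_lt_add_one (div_nonneg hl hT.le)).le h80
  have a2 := mul_le_mul_of_nonneg_right h8l (div_nonneg hl hT.le)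
  have e : Real.log n * (3 / T) = 3 * (Real.log n / T) := by ring
  linarith

lemma growth_ge {n W : ℕ} (hn : 2 ≤ n) {T : ℝ} {K : ℕ} (hT : 0 < T) (hK : 2 * T ≤ K)
    (hW : Real.log n ≤ T * W) : (n:ℝ) ^ 4 ≤ ((8:ℝ) ^ W) ^ K := by
  have hn0 : (0:ℝ) < n := by exact_mod_cast (show 0 < n by omega)
  rw [← Real.log_le_log_iff (by positivity) (by positivity), Real.log_pow, Real.log_pow, Real.log_pow]
  push_cast
  have h8 : 2 ≤ Real.log 8 := by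
    rw [show (8:ℝ) = 2 ^ 3 by norm_num, Real.log_pow]
    have := Real.log_two_gt_d9
    push_cast; linarith
  have h1 : 2 * T * ((W:ℝ) * 2) ≤ (K:ℝ) * ((W:ℝ) * Real.log 8) :=
    mul_le_mul hK (mul_le_mul_of_nonneg_left h8 (Nat.cast_nonneg W)) (by positivity) (Nat.cast_nonneg K)
  linarith

lemma level_bound {q K K0 M1 : ℕ} {R l Λ : ℝ} (hR : 1 ≤ R) (hl : 0.69 ≤ l) (hΛ : Λ ≤ 7 * l)
    (hΛ0 : 0 ≤ Λ) (hK0 : (K0:ℝ) ≤ 8 * Λ * (48 * (4 * R ^ 5) * ((K:ℝ) + 1) * R) ^ q + 5)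
    (hK1 : 1 ≤ K0) (hM1 : (M1:ℝ) ≤ 6 * (2 * (K0:ℝ)) ^ q * Λ + 2) :
    (((K + 1) * (M1 * (24 * K0 ^ 2 * (2 * K0) ^ q)) : ℕ) : ℝ)
      ≤ ((K:ℝ) + 1) * (24 * 50 * 4 ^ q * (64 * (192 * ((K:ℝ) + 1)) ^ q) ^ (2 * q + 2))
        * (l ^ (2 * q + 3) * R ^ (6 * q * (2 * q + 2))) := by
  have hK : (1:ℝ) ≤ (K:ℝ) + 1 := by linarith [(Nat.cast_nonneg K : (0:ℝ) ≤ K)]
  set a : ℝ := (192 * ((K:ℝ) + 1)) ^ q with ha
  set B := R ^ (6 * q) with hB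
  have ha1 : 1 ≤ a := one_le_pow₀ (by linarith)
  have hB1 : 1 ≤ B := one_le_pow₀ hR
  have e1 : (48 * (4 * R ^ 5) * ((K:ℝ) + 1) * R) ^ q = a * B := by
    rw [ha, hB, pow_mul, ← mul_pow]; ring
  rw [e1] at hK0
  have hb : (K0:ℝ) ≤ 64 * a * (l * B) := by
    have h1 := mul_le_mul_of_nonneg_right hΛ (show 0 ≤ a * B by positivity)
    have h2 : 0.69 ≤ l * (a * B) := by
      calc (0.69:ℝ) = 0.69 * 1 := (mul_one _).symm
        _ ≤ _ := mul_le_mul hl (one_le_mul_of_one_le_of_one_le ha1 hB1) zero_le_one (by linarith)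
    linarith
  have hK1r : (1:ℝ) ≤ K0 := by exact_mod_cast hK1
  have h2q : 1 ≤ (2 * (K0:ℝ)) ^ q := one_le_pow₀ (by linarith)
  have hM : (M1:ℝ) ≤ 50 * (2 * (K0:ℝ)) ^ q * l := by
    have h1 := mul_le_mul_of_nonneg_left hΛ (show 0 ≤ 6 * (2 * (K0:ℝ)) ^ q by positivity)
    have h2 := mul_le_mul h2q hl (by norm_num) (by positivity)
    linarith
  push_cast
  calc ((K:ℝ) + 1) * ((M1:ℝ) * (24 * (K0:ℝ) ^ 2 * (2 * (K0:ℝ)) ^ q))
      ≤ ((K:ℝ) + 1) * (50 * (2 * (K0:ℝ)) ^ q * l * (24 * (K0:ℝ) ^ 2 * (2 * (K0:ℝ)) ^ q)) := by gcongr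
    _ = ((K:ℝ) + 1) * (24 * 50 * 4 ^ q * (l * (K0:ℝ) ^ (2 * q + 2))) := by
        rw [show (4:ℝ) ^ q = 2 ^ q * 2 ^ q by rw [← mul_pow]; norm_num]
        ring
    _ ≤ ((K:ℝ) + 1) * (24 * 50 * 4 ^ q * (l * (64 * a * (l * B)) ^ (2 * q + 2))) := by gcongr
    _ = _ := by rw [hB, mul_pow (64 * a), mul_pow l, ← pow_mul]; ring

/-- The embedding: distortion proportional to T, dimension n to a power proportional to 1 / T. -/
theorem exists_main (hp : 1 ≤ p) (K2 : ℝ) :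
    ∃ c0 e0 : ℝ, 1 ≤ c0 ∧ 0 < e0 ∧ ∀ T : ℝ, 2 ≤ T → ∃ C : ℝ, 0 ≤ C ∧
      ∀ (n N : ℕ), 2 ≤ n → (N:ℝ) ≤ K2 * (n:ℝ) ^ 2 → ∀ X : Fin n → Fin N → ℝ, Function.Injective X →
        ∃ (d : ℕ) (f : Fin n → Fin d → ℝ), (d:ℝ) ≤ C * (n:ℝ) ^ (e0 / T) ∧
          ∀ x y, nrm p (X x - X y) ≤ nrm p (f x - f y) ∧
            nrm p (f x - f y) ≤ c0 * T * nrm p (X x - X y) := by
  set q := ⌈p⌉₊ with hqdef
  have hq : p ≤ (q:ℝ) := Nat.le_ceil _
  have hq1 : 1 ≤ q := Nat.ceil_pos.2 (by linarith)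
  set E := 6 * q * (2 * q + 2) with hE
  have hE0 : (0:ℝ) < E := by exact_mod_cast (show 0 < E by positivity)
  refine ⟨1440 * 12000 * (2 ^ q * (1 + 12 * q.factorial)), 4 * E, ?_, by positivity, fun T hT => ?_⟩
  · have h1 : (1:ℝ) ≤ 2 ^ q * (1 + 12 * (q.factorial : ℝ)) :=
      one_le_mul_of_one_le_of_one_le (one_le_pow₀ (by norm_num)) (le_add_of_nonneg_right (by positivity))
    linarith
  set K := ⌈2 * T⌉₊ + 20 with hKdef
  have hK2T : 2 * T ≤ (K:ℝ) := (Nat.le_ceil _).trans (by rw [hKdef]; push_cast; linarith)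
  obtain ⟨W0, hW0⟩ := pow_unbounded_of_one_lt (max 4800 (max (32 * T) (64 * K2 * ((K:ℝ) + 1))))
    (show (1:ℝ) < 8 by norm_num)
  simp only [max_lt_iff] at hW0
  obtain ⟨Cl, hCl, hlp⟩ := log_pow_le (((q + 1 + (2 * q + 3) : ℕ)) : ℝ) ((E:ℝ) / T)
    (by positivity) (by positivity)
  set A : ℝ := ((K:ℝ) + 1) * (24 * 50 * 4 ^ q * (64 * (192 * ((K:ℝ) + 1)) ^ q) ^ (2 * q + 2)) with hA
  set A' : ℝ := 4 * 9 ^ q + 135 * (1 / 0.69) ^ q with hA'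
  refine ⟨A' * A * Cl * ((8:ℝ) ^ (W0 + 1)) ^ E, by positivity, fun n N hn hNK X hX => ?_⟩
  obtain ⟨hl69, hΛ1, -, h24⟩ := log_facts hn
  have hn1 : (1:ℝ) ≤ n := by exact_mod_cast (show 1 ≤ n by omega)
  have hn2 : (2:ℝ) ≤ n := by exact_mod_cast hn
  set l := Real.log n with hl
  have hl0 : 0 < l := by linarith
  have hN : 1 ≤ N := by
    rcases Nat.eq_zero_or_pos N with h | h
    · subst h
      exact absurd (hX (Subsingleton.elim (X ⟨0, by omega⟩) (X ⟨1, by omega⟩))) (by simp)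
    · exact h
  set W := ⌈l / T⌉₊ + W0 with hWdef
  have h80 : (8:ℝ) ^ W0 ≤ (8:ℝ) ^ W := pow_le_pow_right₀ (by norm_num) (by omega)
  set R : ℝ := (8:ℝ) ^ W with hR
  have hR1 : 1 ≤ R := one_le_pow₀ (by norm_num)
  have hW1 : 1 ≤ W := by
    have : 0 < ⌈l / T⌉₊ := Nat.ceil_pos.2 (by positivity)
    omega
  have hlog : l ≤ T * W := by
    have h1 := Nat.le_ceil (l / T)
    rw [div_le_iff₀ (by linarith)] at h1
    have h2 : (⌈l / T⌉₊ : ℝ) ≤ W := by exact_mod_cast Nat.le_add_right _ W0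
    have := mul_le_mul_of_nonneg_left h2 (show 0 ≤ T by linarith)
    linarith
  set Λ := Real.log (2 * (2 * ((n:ℝ) + 1) + 1) ^ 2) with hΛ
  have hΛ0 : 0 ≤ Λ := Real.log_nonneg (by nlinarith)
  have hΛ7 : Λ ≤ 7 * l := by
    rw [show 7 * l = Real.log ((n:ℝ) ^ 7) by rw [Real.log_pow]; norm_num; rw [hl]]
    refine Real.log_le_log (by positivity) ?_
    calc 2 * (2 * ((n:ℝ) + 1) + 1) ^ 2 ≤ 2 * (4 * (n:ℝ)) ^ 2 := by gcongr; linarith
      _ = 2 ^ 5 * (n:ℝ) ^ 2 := by ring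
      _ ≤ (n:ℝ) ^ 5 * (n:ℝ) ^ 2 := by gcongr
      _ = _ := by ring
  have hGK : 16 * (N:ℝ) * (4 * R ^ 5) * ((K:ℝ) + 1) ≤ R ^ K := by
    have hgg := growth_ge hn (by linarith) (show 2 * T ≤ ((K - 20 : ℕ) : ℝ) by
      rw [hKdef, Nat.add_sub_cancel]; exact Nat.le_ceil _) hlog
    rw [← hR] at hgg
    have h2 : (n:ℝ) ^ 2 ≤ R ^ (K - 20) := (pow_le_pow_right₀ hn1 (by norm_num)).trans hgg
    calc 16 * (N:ℝ) * (4 * R ^ 5) * ((K:ℝ) + 1) = 64 * ((K:ℝ) + 1) * R ^ 5 * N := by ring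
      _ ≤ 64 * ((K:ℝ) + 1) * R ^ 5 * (K2 * (n:ℝ) ^ 2) := mul_le_mul_of_nonneg_left hNK (by positivity)
      _ = 64 * K2 * ((K:ℝ) + 1) * R ^ 5 * (n:ℝ) ^ 2 := by ring
      _ ≤ R * R ^ 5 * R ^ (K - 20) := mul_le_mul (mul_le_mul_of_nonneg_right (by linarith) (by positivity))
          h2 (by positivity) (by positivity)
      _ ≤ R ^ K := by
          rw [← pow_succ', ← pow_add]
          exact pow_le_pow_right₀ hR1 (by omega)
  set K0 := ⌈8 * Λ * (48 * (4 * R ^ 5) * ((K:ℝ) + 1) * R) ^ q + 4⌉₊ with hK0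
  set M1 := ⌈6 * (2 * (K0:ℝ)) ^ q * Λ⌉₊ + 1 with hM1
  set D : Fin n → Fin n → ℝ := fun x y => nrm p (X x - X y) with hDX
  have hD : IsDist D :=
    { self := fun x => by simp only [hDX, sub_self, nrm_zero hp]
      comm := fun x y => nrm_sub_comm _ _
      tri := fun x y z => nrm_sub_le_sub hp _ _ _
      pos := fun x y hxy => lt_of_le_of_ne (nrm_nonneg _) fun h =>
        hxy (hX (sub_eq_zero.1 (eq_zero_of_nrm hp h.symm))) }
  have hR5 : 1 ≤ 4 * R ^ 5 := by linarith [one_le_pow₀ (n := 5) hR1]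
  have hF := feat_of_levels hp hN X hDX hq (G := R) (Rat := 4 * R ^ 5) (Λ := Λ) (K := K) (K0 := K0)
    (M1 := M1) (by linarith) hR5 le_rfl hGK (Nat.le_ceil _) (by omega)
    (by rw [hM1]; push_cast; exact (Nat.le_ceil _).trans (le_add_of_nonneg_right zero_le_one))
  set M := (K + 1) * (M1 * (24 * K0 ^ 2 * (2 * K0) ^ q)) with hM
  set L0 := ⌈Real.log (24 * (n:ℝ))⌉₊ + 1 with hL0
  set Λ' := Real.log (2 * ((n:ℝ) ^ 2 + n)) with hΛ'
  have hΛ'0 : 0 ≤ Λ' := Real.log_nonneg (by nlinarith)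
  set Ms := ⌈(L0:ℝ) ^ q * Λ'⌉₊ + ⌈32 * Λ'⌉₊ + 1 with hMs
  have hL0e : 24 * (n:ℝ) ≤ Real.exp (L0 : ℝ) := by
    rw [← Real.log_le_iff_le_exp (by positivity), hL0]
    push_cast
    linarith [Nat.le_ceil (Real.log (24 * (n:ℝ)))]
  obtain ⟨f, hf⟩ := exists_step hp hq hD hW1 hT (n := n) hlog (by linarith) (by linarith) hF
    (L := L0) (Ms := Ms) (by omega) hL0e (by omega)
    (by rw [hMs]; push_cast; linarith [Nat.le_ceil ((L0:ℝ) ^ q * Λ'), Nat.cast_nonneg (α := ℝ) ⌈32 * Λ'⌉₊])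
    (by rw [hMs]; push_cast; linarith [Nat.le_ceil (32 * Λ'), Nat.cast_nonneg (α := ℝ) ⌈(L0:ℝ) ^ q * Λ'⌉₊])
  refine ⟨Fintype.card (Fin Ms × Fin M),
    fun x k => 1440 * f x ((Fintype.equivFin (Fin Ms × Fin M)).symm k), ?_, fun x y => ?_⟩
  swap
  · have e : nrm p ((fun k => 1440 * f x ((Fintype.equivFin (Fin Ms × Fin M)).symm k))
        - fun k => 1440 * f y ((Fintype.equivFin (Fin Ms × Fin M)).symm k)) = 1440 * nrm p (f x - f y) := by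
      rw [show ((fun k => 1440 * f x ((Fintype.equivFin (Fin Ms × Fin M)).symm k))
        - fun k => 1440 * f y ((Fintype.equivFin (Fin Ms × Fin M)).symm k))
        = (1440:ℝ) • (fun k => (f x - f y) ((Fintype.equivFin (Fin Ms × Fin M)).symm k)) by
          funext k; simp only [Pi.sub_apply, Pi.smul_apply, smul_eq_mul]; ring,
        nrm_smul hp, nrm_comp_equiv, abs_of_pos (by norm_num : (0:ℝ) < 1440)]
    simp only []
    rw [e]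
    obtain ⟨h1, h2⟩ := hf x y
    have eD : nrm p (X x - X y) = D x y := rfl
    rw [eD]
    constructor <;> linarith
  rw [Fintype.card_prod, Fintype.card_fin, Fintype.card_fin]
  have hb1 : (M:ℝ) ≤ A * (l ^ (2 * q + 3) * R ^ E) := by
    refine level_bound hR1 hl69 hΛ7 hΛ0 ?_ ?_ ?_
    · exact (Nat.ceil_lt_add_one (by positivity)).le.trans (by linarith)
    · exact Nat.ceil_pos.2 (by positivity)
    · rw [hM1]; push_cast; linarith [Nat.ceil_lt_add_one (show 0 ≤ 6 * (2 * (K0:ℝ)) ^ q * Λ by positivity)]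
  have hb2 : (Ms:ℝ) ≤ A' * l ^ (q + 1) := Ms_bound hn
  have hRE : R ^ E ≤ ((8:ℝ) ^ (W0 + 1)) ^ E * (n:ℝ) ^ (3 * (E:ℝ) / T) := by
    refine (pow_le_pow_left₀ (by positivity) (growth_le hn (by linarith)) E).trans (le_of_eq ?_)
    rw [mul_pow, ← Real.rpow_natCast ((n:ℝ) ^ (3 / T)), ← Real.rpow_mul (by positivity)]
    ring_nf
  have hlq : l ^ (q + 1 + (2 * q + 3)) ≤ Cl * (n:ℝ) ^ ((E:ℝ) / T) := by
    rw [← Real.rpow_natCast]; exact hlp n hn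
  push_cast
  calc (Ms:ℝ) * (M:ℝ) ≤ A' * l ^ (q + 1) * (A * (l ^ (2 * q + 3) * R ^ E)) := by
        exact mul_le_mul hb2 hb1 (Nat.cast_nonneg M) (by positivity)
    _ = A' * A * (l ^ (q + 1 + (2 * q + 3)) * R ^ E) := by rw [pow_add]; ring
    _ ≤ A' * A * (Cl * (n:ℝ) ^ ((E:ℝ) / T) * (((8:ℝ) ^ (W0 + 1)) ^ E * (n:ℝ) ^ (3 * (E:ℝ) / T))) :=
        mul_le_mul_of_nonneg_left (mul_le_mul hlq hRE (by positivity) (by positivity)) (by positivity)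
    _ = _ := by
        rw [show 4 * (E:ℝ) / T = (E:ℝ) / T + 3 * (E:ℝ) / T by ring, Real.rpow_add (by linarith)]
        ring

end Vale.Agent.P249.Eps
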