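import Vale.Agent.P249.Upper
import Vale.Agent.P249.Eps.Main

namespace Vale.Agent.P249.Eps

open Finset MeasureTheory Vale.Agent.P249.Sub

universe u

variable {p : ℝ}

lemma nrm_cons (hp : 1 ≤ p) {d : ℕ} (a : ℝ) (v : Fin d → ℝ) :
    |a| ≤ nrm p (Fin.cons a v : Fin (d+1) → ℝ) ∧ nrm p v ≤ nrm p (Fin.cons a v : Fin (d+1) → ℝ) ∧
      nrm p (Fin.cons a v : Fin (d+1) → ℝ) ≤ |a| + nrm p v := by
  have e : nrm p (Fin.cons a v : Fin (d+1) → ℝ) ^ p = |a| ^ p + nrm p v ^ p := by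
    rw [nrm_rpow hp, nrm_rpow hp, Fin.sum_univ_succ]; simp
  have hv := nrm_nonneg (p := p) v
  refine ⟨?_, ?_, ?_⟩
  · refine le_nrm_of_le_psum hp (abs_nonneg _) ?_
    rw [← nrm_rpow hp, e]
    linarith [Real.rpow_nonneg hv p]
  · refine le_nrm_of_le_psum hp hv ?_
    rw [← nrm_rpow hp (Fin.cons a v : Fin (d+1) → ℝ), e]
    linarith [Real.rpow_nonneg (abs_nonneg a) p]
  · refine nrm_le_of_psum_le hp (add_nonneg (abs_nonneg _) hv) ?_
    rw [← nrm_rpow hp, e]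
    exact Real.add_rpow_le_rpow_add (abs_nonneg _) hv hp

lemma cons_sub {d : ℕ} (a b : ℝ) (u v : Fin d → ℝ) :
    (Fin.cons a u : Fin (d+1) → ℝ) - Fin.cons b v = Fin.cons (a - b) (u - v) := by
  funext k
  refine Fin.cases ?_ (fun k => ?_) k <;> simp

variable {α : Type*} [MeasurableSpace α] {μ : Measure α}

lemma upper_const [Fact (1 ≤ ENNReal.ofReal p)] (hp : 1 ≤ p) {n : ℕ} (hn : 2 ≤ n)
    (x : Fin n → Lp ℝ (ENNReal.ofReal p) μ) :
    ∃ (d : ℕ) (f : Fin n → Fin d → ℝ),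
      (d : ℝ) ≤ 3 * 99 * 8 ^ p * 64 * (n * Real.log n ^ (p + 3)) + 2 ∧
      ∀ i j, ‖x i - x j‖ ≤ nrm p (f i - f j) ∧ nrm p (f i - f j) ≤ 2 * ‖x i - x j‖ := by
  obtain ⟨d, f, s, hd, hs, hf⟩ := upper hp (show (0:ℝ) < 1/8 by norm_num) (by norm_num) hn x
  refine ⟨d, fun i => s⁻¹ • f i, hd.trans (le_of_eq (by ring)), fun i j => ?_⟩
  obtain ⟨h1, h2⟩ := hf i j
  have e : nrm p (s⁻¹ • f i - s⁻¹ • f j) = s⁻¹ * nrm p (f i - f j) := by
    rw [← smul_sub, nrm_smul hp, abs_of_pos (inv_pos.2 hs)]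
  have e2 : nrm p (f i - f j) = (∑ l, |f i l - f j l| ^ p) ^ (1/p) := by simp [nrm]
  rw [e, e2]
  constructor
  · rw [le_inv_mul_iff₀ hs]; exact h1
  · rw [inv_mul_le_iff₀ hs]
    refine h2.trans ?_
    have hle : (1 + 8 * (1/8 : ℝ)) ^ (1/p) ≤ 2 := by
      calc (1 + 8 * (1/8 : ℝ)) ^ (1/p) ≤ (2:ℝ) ^ (1:ℝ) := by
            norm_num
            refine Real.rpow_le_rpow_of_exponent_le (x := (2:ℝ)) (by norm_num) (?_ : p⁻¹ ≤ 1) |>.trans ?_
            · exact inv_le_one_of_one_le₀ hp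
            · norm_num
        _ = 2 := Real.rpow_one 2
    have := mul_le_mul_of_nonneg_right hle (mul_nonneg hs.le (norm_nonneg (x i - x j)))
    linarith

/-- Reduction from `L_p`. -/
theorem exists_quant (hp : 1 ≤ p) :
    ∃ c : ℝ, 1 ≤ c ∧ ∀ D : ℝ, c ≤ D → ∃ C : ℝ, 0 ≤ C ∧ ∀ (n : ℕ), 2 ≤ n →
      ∀ (β : Type u) [MeasurableSpace β] (ν : Measure β) [Fact (1 ≤ ENNReal.ofReal p)]
        (x : Fin n → Lp ℝ (ENNReal.ofReal p) ν),
      ∃ (d : ℕ) (f : Fin n → Fin d → ℝ) (s : ℝ), (d:ℝ) ≤ C * (n:ℝ) ^ (c / D) ∧ 0 < s ∧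
        ∀ i j, s * ‖x i - x j‖ ≤ (∑ k, |f i k - f j k| ^ p) ^ (1/p) ∧
          (∑ k, |f i k - f j k| ^ p) ^ (1/p) ≤ D * (s * ‖x i - x j‖) := by
  classical
  obtain ⟨Cl, hCl, hlp⟩ := log_pow_le (p + 3) 1 (by linarith) one_pos
  obtain ⟨c0, e0, hc0, he0, hmain⟩ := exists_main hp (3 * 99 * 8 ^ p * 64 * Cl + 3)
  refine ⟨max (4 * c0) (2 * c0 * e0), le_trans (by linarith) (le_max_left _ _), fun D hD => ?_⟩
  have hD4 : 4 * c0 ≤ D := (le_max_left _ _).trans hD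
  have hT : 2 ≤ D / (2 * c0) := by rw [le_div_iff₀ (by linarith)]; linarith
  obtain ⟨C, hC, hT2⟩ := hmain (D / (2 * c0)) hT
  refine ⟨C, hC, fun n hn β _ ν _ x => ?_⟩
  obtain ⟨d1, f1, hd1, hf1⟩ := upper_const hp hn x
  have hne : ∀ i, (univ.filter fun j => x j = x i).Nonempty := fun i => ⟨i, by simp⟩
  set r : Fin n → Fin n := fun i => (univ.filter fun j => x j = x i).min' (hne i) with hr
  have hxr : ∀ i, x (r i) = x i := fun i =>
    (mem_filter.1 ((univ.filter fun j => x j = x i).min'_mem (hne i))).2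
  have hrr : ∀ i j, x i = x j → r i = r j := fun i j h => by simp only [hr, h]
  set wt : Fin n → ℝ := fun i => if r i = i then 0 else ((i:ℕ):ℝ) + 1 with hwt
  set X : Fin n → Fin (d1 + 1) → ℝ := fun i => Fin.cons (wt i) (f1 i) with hX
  have hXd : ∀ i j, X i - X j = Fin.cons (wt i - wt j) (f1 i - f1 j) := fun i j => cons_sub _ _ _ _
  have hinj : Function.Injective X := by
    intro i j h
    obtain ⟨hw, hf⟩ := Fin.cons_inj.1 (h : (Fin.cons (wt i) (f1 i) : Fin (d1+1) → ℝ) = Fin.cons (wt j) (f1 j))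
    have hx : x i = x j := by
      have h1 := (hf1 i j).1
      rw [hf, sub_self, nrm_zero hp] at h1
      exact sub_eq_zero.1 (norm_le_zero_iff.1 h1)
    simp only [hwt] at hw
    by_cases hi : r i = i <;> by_cases hj : r j = j
    · rw [← hi, ← hj]; exact hrr i j hx
    · rw [if_pos hi, if_neg hj] at hw
      have : (0:ℝ) ≤ ((j:ℕ):ℝ) := Nat.cast_nonneg _
      linarith
    · rw [if_neg hi, if_pos hj] at hw
      have : (0:ℝ) ≤ ((i:ℕ):ℝ) := Nat.cast_nonneg _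
      linarith
    · rw [if_neg hi, if_neg hj, add_left_inj] at hw
      exact Fin.ext (by exact_mod_cast hw)
  have hn1 : (1:ℝ) ≤ n := by exact_mod_cast (show 1 ≤ n by omega)
  have hN : ((d1 + 1 : ℕ):ℝ) ≤ (3 * 99 * 8 ^ p * 64 * Cl + 3) * (n:ℝ) ^ 2 := by
    have h1 := mul_le_mul_of_nonneg_left (hlp n hn) (Nat.cast_nonneg (α := ℝ) n)
    rw [Real.rpow_one] at h1
    have h2 := mul_le_mul_of_nonneg_left h1 (show (0:ℝ) ≤ 3 * 99 * 8 ^ p * 64 by positivity)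
    have h3 := one_le_mul_of_one_le_of_one_le hn1 hn1
    rw [sq]
    push_cast
    linarith
  obtain ⟨d, f, hd, hf⟩ := hT2 n (d1 + 1) hn hN X hinj
  refine ⟨d, fun i => f (r i), 1, hd.trans ?_, one_pos, fun i j => ?_⟩
  · refine mul_le_mul_of_nonneg_left (Real.rpow_le_rpow_of_exponent_le hn1 ?_) hC
    rw [div_div_eq_mul_div]
    exact div_le_div_of_nonneg_right (le_trans (le_of_eq (by ring)) (le_max_right _ _)) (by linarith)
  have hrep : ∀ i, wt (r i) = 0 := fun i => by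
    simp only [hwt, hrr (r i) i (hxr i), if_true]
  have e : (∑ k, |f (r i) k - f (r j) k| ^ p) ^ (1/p) = nrm p (f (r i) - f (r j)) := by simp [nrm]
  rw [e]
  obtain ⟨h1, h2⟩ := hf (r i) (r j)
  obtain ⟨c1, c2, c3⟩ := nrm_cons hp (wt (r i) - wt (r j)) (f1 (r i) - f1 (r j))
  rw [← hXd] at c2 c3
  rw [hrep, hrep, sub_self, abs_zero] at c3
  obtain ⟨u1, u2⟩ := hf1 (r i) (r j)
  rw [hxr, hxr] at u1 u2
  rw [one_mul]
  refine ⟨(u1.trans c2).trans h1, h2.trans ?_⟩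
  calc c0 * (D / (2 * c0)) * nrm p (X (r i) - X (r j)) ≤ c0 * (D / (2 * c0)) * (2 * ‖x i - x j‖) :=
        mul_le_mul_of_nonneg_left ((c3.trans (le_of_eq (zero_add _))).trans u2)
          (mul_nonneg (by linarith) (by linarith))
    _ = _ := by field_simp

end Vale.Agent.P249.Eps
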