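import Vale.Agent.P249.Eps.Band

namespace Vale.Agent.P249.Eps

open Finset Vale.Agent.P249.Sub

variable {n : ℕ} {D : Fin n → Fin n → ℝ}

/-- Telescoping of ball growth over all bands. -/
lemma sum_grow_le (hD : IsDist D) (x : Fin n) {s0 : ℝ} (hs0 : 0 ≤ s0) (W Bn : ℕ) :
    ∑ b : Fin Bn, ∑ i : Fin W, grow D x (s0 * 8 ^ (W * (b:ℕ) + i)) ≤ Real.log n := by
  have h0 : ∑ j ∈ range (Bn * W), grow D x (s0 * 8 ^ j) ≤ Real.log n := by
    have h := telescope_log hD x (fun j => s0 * 8 ^ (Bn * W) / 8 ^ (j + 1))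
      (fun j => by positivity)
      (fun j => le_of_eq (by field_simp; ring)) (Bn * W)
    refine le_trans (le_of_eq ?_) h
    rw [← sum_range_reflect (fun j => grow D x (s0 * 8 ^ j)) (Bn * W)]
    refine sum_congr rfl fun j hj => ?_
    have hj' := mem_range.1 hj
    have e : s0 * (8:ℝ) ^ (Bn * W) / 8 ^ (j + 1) = s0 * 8 ^ (Bn * W - 1 - j) := by
      rw [div_eq_iff (by positivity), mul_assoc, ← pow_add,
        show Bn * W - 1 - j + (j + 1) = Bn * W by omega]
    simp only [grow, e]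
  rw [← Fintype.sum_prod_type', ← (finProdFinEquiv (m := Bn) (n := W)).symm.sum_comp]
  refine le_trans (le_of_eq ?_) h0
  rw [← Fin.sum_univ_eq_sum_range]
  refine sum_congr rfl fun k _ => ?_
  congr 2
  simp [finProdFinEquiv, Fin.divNat, Fin.modNat]
  rw [Nat.div_add_mod]

/-- One band outcome with a sign. -/
abbrev Outc (n W J : ℕ) : Type := (Fin W × (Equiv.Perm (Fin n) × Fin J)) × Bool

variable {T : ℝ} {W J Bn : ℕ}

open Classical in
/-- Indicator of an unpadded point. -/
noncomputable def bad1 (D : Fin n → Fin n → ℝ) (s0 T : ℝ) (W J b : ℕ) (x : Fin n) (o : Outc n W J) :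
    ℕ :=
  if Pads D s0 T W J b o.1 x then 0 else 1

/-- The number of bands in which a point is not padded. -/
noncomputable def count (D : Fin n → Fin n → ℝ) (s0 T : ℝ) (W J Bn : ℕ) (x : Fin n)
    (ω : Fin Bn → Outc n W J) : ℕ :=
  ∑ b : Fin Bn, bad1 D s0 T W J (b:ℕ) x (ω b)

lemma sum_bad1 (hD : IsDist D) {s0 : ℝ} (hs0 : 0 < s0) (hT : 2 ≤ T) (b : ℕ) (x : Fin n) :
    ∑ o : Outc n W J, (bad1 D s0 T W J b x o : ℝ) ≤ 2 * ((Fintype.card (Equiv.Perm (Fin n)) : ℝ) *
      ((15 / (64 * T) * (J:ℝ) + 1) * ∑ i : Fin W, grow D x (scale s0 W b i))) := by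
  classical
  rw [Fintype.sum_prod_type]
  simp only [Fintype.sum_bool, bad1]
  rw [sum_add_distrib, ← two_mul]
  refine mul_le_mul_of_nonneg_left ?_ (by norm_num)
  rw [Fintype.sum_prod_type]
  rw [mul_sum, mul_sum]
  refine sum_le_sum fun i _ => ?_
  have hs : 0 < scale s0 W b i := by unfold scale; positivity
  have hT0 : 0 < T := by linarith
  have ht : 3 * (pfac T * scale s0 W b i) ≤ scale s0 W b i / 16 := by
    have e : 3 * pfac T ≤ 1 / 16 := by
      rw [pfac, mul_one_div, div_le_div_iff₀ (by positivity) (by norm_num)]; linarith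
    have := mul_le_mul_of_nonneg_right e hs.le
    linarith
  have h1 := cut_count_scale hD hs x (t := 3 * (pfac T * scale s0 W b i))
    (by unfold pfac; positivity) ht J
  refine le_trans (le_of_eq ?_) (h1.trans (le_of_eq ?_))
  · rw [Finset.card_filter]
    push_cast
    refine sum_congr rfl fun o _ => ?_
    by_cases h : Pads D s0 T W J b (i, o) x
    · rw [if_pos h, if_neg]
      rintro ⟨y, hy, hne⟩
      exact hne (h y hy)
    · rw [if_neg h, if_pos]
      simp only [Pads] at h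
      push Not at h
      obtain ⟨y, hy, hne⟩ := h
      exact ⟨y, hy, hne⟩
  · rw [pfac]
    congr 2
    field_simp
    ring

lemma card_outc : (Fintype.card (Outc n W J) : ℝ)
    = 2 * ((W:ℝ) * ((Fintype.card (Equiv.Perm (Fin n)) : ℝ) * J)) := by
  simp [Outc]; ring

lemma total_bad (hD : IsDist D) {s0 : ℝ} (hs0 : 0 < s0) (hW : 1 ≤ W) (hT : 2 ≤ T)
    (hJ : 32 * T ≤ J) (hlog : Real.log n ≤ T * W) (Bn : ℕ) (x : Fin n) :
    ∑ b : Fin Bn, ∑ o : Outc n W J, (bad1 D s0 T W J b x o : ℝ)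
      ≤ (Fintype.card (Outc n W J) : ℝ) / 2 := by
  set P : ℝ := ((Fintype.card (Equiv.Perm (Fin n)) : ℕ) : ℝ)
  refine (sum_le_sum fun (b : Fin Bn) _ => sum_bad1 (W := W) (J := J) hD hs0 hT (b:ℕ) x).trans ?_
  rw [← mul_sum, ← mul_sum, ← mul_sum, card_outc]
  have h := (sum_grow_le hD x hs0.le W Bn).trans hlog
  simp only [scale]
  have hT0 : 0 < T := by linarith
  have hcoef : 0 ≤ 15 / (64 * T) * (J:ℝ) + 1 := by positivity
  have hP : 0 ≤ P := Nat.cast_nonneg _
  calc 2 * (P * ((15 / (64 * T) * (J:ℝ) + 1) * ∑ b : Fin Bn, ∑ i : Fin W, grow D x (s0 * 8 ^ (W * (b:ℕ) + i))))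
      ≤ 2 * (P * ((15 / (64 * T) * (J:ℝ) + 1) * (T * W))) :=
        mul_le_mul_of_nonneg_left (mul_le_mul_of_nonneg_left (mul_le_mul_of_nonneg_left h hcoef) hP)
          (by norm_num)
    _ = 2 * (P * W * (15 / 64 * J + T)) := by field_simp
    _ ≤ 2 * (P * W * (J / 2)) := by
        refine mul_le_mul_of_nonneg_left (mul_le_mul_of_nonneg_left (by linarith) (by positivity)) (by norm_num)
    _ = _ := by ring

/-- The marginal of one band. -/
lemma sum_marginal {O : Type*} [Fintype O] (b : Fin Bn) (f : O → ℝ) :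
    (∑ ω : Fin Bn → O, f (ω b)) * (Fintype.card O : ℝ)
      = (Fintype.card (Fin Bn → O) : ℝ) * ∑ o, f o := by
  classical
  rw [← (Equiv.piSplitAt b fun _ : Fin Bn => O).symm.sum_comp, Fintype.sum_prod_type]
  rw [← Fintype.card_congr (Equiv.piSplitAt b fun _ : Fin Bn => O).symm, Fintype.card_prod]
  simp only [Equiv.piSplitAt_symm_apply, dif_pos, cast_eq, sum_const, card_univ, nsmul_eq_mul]
  rw [← mul_sum]
  push_cast
  ring

lemma exp_count (hD : IsDist D) {s0 : ℝ} (hs0 : 0 < s0) (hW : 1 ≤ W) (hT : 2 ≤ T)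
    (hJ : 32 * T ≤ J) (hlog : Real.log n ≤ T * W) (x : Fin n) :
    ∑ ω : Fin Bn → Outc n W J, Real.exp ((count D s0 T W J Bn x ω : ℕ) : ℝ)
      ≤ 3 * (Fintype.card (Fin Bn → Outc n W J) : ℝ) := by
  classical
  have hJ0 : (0:ℝ) < J := by linarith
  have hWr : (0:ℝ) < W := by exact_mod_cast hW
  have hc : (0:ℝ) < Fintype.card (Outc n W J) := by
    rw [card_outc]
    have : (0:ℝ) < Fintype.card (Equiv.Perm (Fin n)) := by exact_mod_cast Fintype.card_pos
    positivity
  set c : ℝ := ((Fintype.card (Outc n W J) : ℕ) : ℝ) with hcdef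
  set f : Fin Bn → Outc n W J → ℝ := fun b o => Real.exp ((bad1 D s0 T W J (b:ℕ) x o : ℕ) : ℝ) with hf
  have e1 : ∀ ω : Fin Bn → Outc n W J, Real.exp ((count D s0 T W J Bn x ω : ℕ) : ℝ) = ∏ b, f b (ω b) := by
    intro ω
    rw [count, Nat.cast_sum, Real.exp_sum]
  simp only [e1]
  rw [← Fintype.prod_sum]
  have hb : ∀ b : Fin Bn, ∑ o, f b o ≤ c * Real.exp (2 * (∑ o, (bad1 D s0 T W J b x o : ℝ)) / c) := by
    intro b
    have h1 : ∀ o, f b o ≤ 1 + 2 * (bad1 D s0 T W J b x o : ℝ) := by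
      intro o
      simp only [hf, bad1]
      split_ifs
      · norm_num
      · rw [Nat.cast_one]; linarith [Real.exp_one_lt_d9]
    refine (sum_le_sum fun o _ => h1 o).trans ?_
    rw [sum_add_distrib, ← mul_sum, sum_const, card_univ, nsmul_eq_mul, mul_one, ← hcdef]
    refine le_trans (le_of_eq ?_) (mul_le_mul_of_nonneg_left
      (Real.add_one_le_exp (2 * (∑ o, (bad1 D s0 T W J b x o : ℝ)) / c)) hc.le)
    field_simp
    ring
  refine (prod_le_prod (fun b _ => sum_nonneg fun o _ => (Real.exp_pos _).le) fun b _ => hb b).trans ?_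
  rw [prod_mul_distrib, prod_const, card_univ, Fintype.card_fin, ← Real.exp_sum,
    Fintype.card_fun, Fintype.card_fin, Nat.cast_pow, ← hcdef, mul_comm (3:ℝ)]
  refine mul_le_mul_of_nonneg_left ?_ (by positivity)
  rw [← sum_div, ← mul_sum]
  have h2 := total_bad hD hs0 hW hT hJ hlog Bn x
  rw [← hcdef] at h2
  have h3 : 2 * (∑ b : Fin Bn, ∑ o : Outc n W J, (bad1 D s0 T W J b x o : ℝ)) / c ≤ 1 := by
    rw [div_le_one hc]; linarith
  exact (Real.exp_le_exp.2 h3).trans (by linarith [Real.exp_one_lt_d9])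

/-- Choice of outcomes: few unpadded bands on average, and every pair is good often. -/
theorem exists_select (hD : IsDist D) {s0 : ℝ} (hs0 : 0 < s0) (hW : 1 ≤ W) (hT : 2 ≤ T)
    (hJ : 32 * T ≤ J) (hlog : Real.log n ≤ T * W) (bnd : Fin n → Fin n → Fin Bn)
    (Good : Fin n → Fin n → (Fin Bn → Outc n W J) → Prop)
    (hgood : ∀ x y ω, x ≠ y → Pads D s0 T W J (bnd x y) (ω (bnd x y)).1 x →
      Good x y ω ∨ Good x y (Function.update ω (bnd x y) ((ω (bnd x y)).1, !(ω (bnd x y)).2)))
    {q L M : ℕ} (hL1 : 1 ≤ L) (hL : 24 * (n:ℝ) ≤ Real.exp L)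
    (hMq : (L:ℝ) ^ q * Real.log (2 * ((n:ℝ) ^ 2 + n)) ≤ M)
    (hMp : 32 * Real.log (2 * ((n:ℝ) ^ 2 + n)) ≤ M) :
    ∃ ω : Fin M → Fin Bn → Outc n W J,
      (∀ x, ∑ l, (count D s0 T W J Bn x (ω l) : ℝ) ^ q ≤ 12 * q.factorial * M) ∧
      ∀ x y, x ≠ y → ∃ s : Finset (Fin M), (1 / 24 : ℝ) * M ≤ s.card ∧ ∀ l ∈ s, Good x y (ω l) := by
  classical
  set Λ := Real.log (2 * ((n:ℝ) ^ 2 + n)) with hΛdef
  rcases Nat.eq_zero_or_pos n with hn | hn
  · subst hn
    have : 0 < W * (Fintype.card (Equiv.Perm (Fin 0)) * J) :=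
      Nat.mul_pos hW (Nat.mul_pos Fintype.card_pos (by
        have : (0:ℝ) < J := by linarith
        exact_mod_cast this))
    have : Nonempty (Outc 0 W J) := Fintype.card_pos_iff.1 (by simpa [Outc] using Nat.mul_pos this two_pos)
    exact ⟨fun _ _ => Classical.arbitrary _, fun x => x.elim0, fun x => x.elim0⟩
  set cT : ℝ := ((Fintype.card (Fin Bn → Outc n W J) : ℕ) : ℝ) with hcT
  have hcO : (0:ℝ) < Fintype.card (Outc n W J) := by
    rw [card_outc]
    have : (0:ℝ) < Fintype.card (Equiv.Perm (Fin n)) := by exact_mod_cast Fintype.card_pos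
    have : (0:ℝ) < J := by linarith
    have : (0:ℝ) < W := by exact_mod_cast hW
    positivity
  have hcT0 : 0 < cT := by
    rw [hcT, Fintype.card_fun, Fintype.card_fin, Nat.cast_pow]; positivity
  set ok : (Fin Bn → Outc n W J) → Prop := fun ω => ∀ x, count D s0 T W J Bn x ω ≤ L with hok
  set mass : ℝ := ((univ.filter ok).card : ℝ) with hmass
  have hnot : ((univ.filter fun ω => ¬ ok ω).card : ℝ) ≤ cT / 8 := by
    have hsub : (univ.filter fun ω => ¬ ok ω)
        ⊆ univ.biUnion fun x => univ.filter fun ω => L < count D s0 T W J Bn x ω := by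
      intro ω hω
      have h := (mem_filter.1 hω).2
      simp only [hok] at h
      push Not at h
      obtain ⟨x, hx⟩ := h
      exact mem_biUnion.2 ⟨x, mem_univ x, mem_filter.2 ⟨mem_univ ω, hx⟩⟩
    have hx : ∀ x, ((univ.filter fun ω => L < count D s0 T W J Bn x ω).card : ℝ) * Real.exp L
        ≤ 3 * cT := by
      intro x
      refine le_trans ?_ (exp_count hD hs0 hW hT hJ hlog x)
      rw [← nsmul_eq_mul]
      refine le_trans (card_nsmul_le_sum _ (fun ω => Real.exp ((count D s0 T W J Bn x ω : ℕ) : ℝ)) _ fun ω hω => ?_)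
        (sum_le_sum_of_subset_of_nonneg (subset_univ _) fun ω _ _ => (Real.exp_pos _).le)
      exact Real.exp_le_exp.2 (by exact_mod_cast (mem_filter.1 hω).2.le)
    have h1 : ((univ.filter fun ω => ¬ ok ω).card : ℝ)
        ≤ ∑ x, ((univ.filter fun ω => L < count D s0 T W J Bn x ω).card : ℝ) := by
      exact_mod_cast (card_le_card hsub).trans card_biUnion_le
    have h2 : ((univ.filter fun ω => ¬ ok ω).card : ℝ) * Real.exp L ≤ (n:ℝ) * (3 * cT) := by
      refine (mul_le_mul_of_nonneg_right h1 (Real.exp_pos _).le).trans ?_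
      rw [sum_mul]
      refine (sum_le_sum fun x _ => hx x).trans (le_of_eq ?_)
      simp
    have hnn : (0:ℝ) ≤ ((univ.filter fun ω => ¬ ok ω).card : ℝ) := Nat.cast_nonneg _
    have h3 := mul_le_mul_of_nonneg_left hL hnn
    have hn' : (0:ℝ) < n := by exact_mod_cast hn
    nlinarith
  have hmass78 : 7 / 8 * cT ≤ mass := by
    have e := card_filter_add_card_filter_not (s := (univ : Finset (Fin Bn → Outc n W J))) ok
    rw [card_univ] at e
    have : mass + ((univ.filter fun ω => ¬ ok ω).card : ℝ) = cT := by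
      rw [hmass, hcT]; exact_mod_cast e
    linarith
  have hmass1 : mass ≤ cT := by
    rw [hmass, hcT]; exact_mod_cast card_le_univ _
  have hmass0 : 0 < mass := by linarith
  have hLq : (0:ℝ) < (L:ℝ) ^ q := by
    have : (0:ℝ) < L := by exact_mod_cast hL1
    positivity
  let Ω := {ω : Fin Bn → Outc n W J // ok ω}
  have hΩ : (Fintype.card Ω : ℝ) = mass := by
    rw [hmass, Fintype.card_subtype]
  have hsub_sum : ∀ f : (Fin Bn → Outc n W J) → ℝ, (∀ o, 0 ≤ f o) →
      ∑ o : Ω, f o.1 ≤ ∑ o, f o := fun f hf => by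
    rw [← sum_subtype (univ.filter ok) (by simp) f]
    exact sum_le_sum_of_subset_of_nonneg (subset_univ _) fun o _ _ => hf o
  set u : (Fin n × Fin n) ⊕ Fin n → Ω → ℝ := fun e o =>
    Sum.elim (fun q' => if Good q'.1 q'.2 o.1 then 1 else 0)
      (fun x => (count D s0 T W J Bn x o.1 : ℝ) ^ q / (L:ℝ) ^ q) e with hu
  have hcard : Real.log (2 * (Fintype.card ((Fin n × Fin n) ⊕ Fin n) : ℝ)) ≤ Λ := by
    rw [Fintype.card_sum, Fintype.card_prod, Fintype.card_fin, hΛdef]
    push_cast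
    exact le_of_eq (by ring_nf)
  obtain ⟨ω, hω⟩ := sample2 (fun _ : Ω => mass⁻¹) (fun _ => (inv_pos.2 hmass0).le)
    (by rw [sum_const, card_univ, nsmul_eq_mul, hΩ]; exact mul_inv_cancel₀ hmass0.ne') u
    (fun e o => by
      rcases e with q' | x <;> simp only [hu, Sum.elim_inl, Sum.elim_inr]
      · split_ifs <;> norm_num
      · positivity)
    (fun e o => by
      rcases e with q' | x <;> simp only [hu, Sum.elim_inl, Sum.elim_inr]
      · split_ifs <;> norm_num
      · rw [div_le_one hLq]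
        exact pow_le_pow_left₀ (Nat.cast_nonneg _) (by exact_mod_cast o.2 x) q)
    hcard M
  refine ⟨fun l => (ω l).1, fun x => ?_, fun x y hxy => ?_⟩
  · have h1 := (hω (Sum.inr x)).1
    simp only [hu, Sum.elim_inr] at h1
    rw [← sum_div, div_le_iff₀ hLq] at h1
    refine h1.trans ?_
    have hmean : ∑ o : Ω, mass⁻¹ * ((count D s0 T W J Bn x o.1 : ℝ) ^ q / (L:ℝ) ^ q)
        ≤ 4 * q.factorial / (L:ℝ) ^ q := by
      rw [← mul_sum, inv_mul_le_iff₀ hmass0, ← sum_div, mul_div_assoc',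
        div_le_div_iff_of_pos_right hLq]
      refine (hsub_sum (fun o => (count D s0 T W J Bn x o : ℝ) ^ q) fun o => by positivity).trans ?_
      calc ∑ o, (count D s0 T W J Bn x o : ℝ) ^ q
          ≤ ∑ o, (q.factorial : ℝ) * Real.exp (count D s0 T W J Bn x o : ℝ) := by
            refine sum_le_sum fun o _ => ?_
            have h := Real.pow_div_factorial_le_exp _ (Nat.cast_nonneg (count D s0 T W J Bn x o)) q
            rwa [div_le_iff₀ (by positivity), mul_comm (Real.exp _)] at h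
        _ ≤ (q.factorial : ℝ) * (3 * cT) := by
            rw [← mul_sum]
            exact mul_le_mul_of_nonneg_left (exp_count hD hs0 hW hT hJ hlog x) (by positivity)
        _ ≤ _ := by
            have := mul_le_mul_of_nonneg_left hmass78 (Nat.cast_nonneg (α := ℝ) q.factorial)
            have : 0 ≤ (q.factorial : ℝ) * cT := by positivity
            linarith
    have hfac : (1:ℝ) ≤ q.factorial := by exact_mod_cast q.factorial_pos
    calc 3 * max ((M:ℝ) * ∑ o : Ω, mass⁻¹ * ((count D s0 T W J Bn x o.1 : ℝ) ^ q / (L:ℝ) ^ q)) Λ * (L:ℝ) ^ q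
        ≤ 3 * (4 * q.factorial * M / (L:ℝ) ^ q) * (L:ℝ) ^ q := by
          refine mul_le_mul_of_nonneg_right (mul_le_mul_of_nonneg_left (max_le ?_ ?_) (by norm_num)) hLq.le
          · refine (mul_le_mul_of_nonneg_left hmean (Nat.cast_nonneg M)).trans (le_of_eq ?_)
            ring
          · rw [le_div_iff₀ hLq, mul_comm Λ]
            exact hMq.trans (le_mul_of_one_le_left (Nat.cast_nonneg _) (by linarith))
      _ = _ := by field_simp; ring
  · refine ⟨univ.filter fun l => Good x y (ω l).1, ?_, fun l hl => (mem_filter.1 hl).2⟩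
    set b0 := bnd x y
    let flip : (Fin Bn → Outc n W J) → (Fin Bn → Outc n W J) := fun o =>
      Function.update o b0 ((o b0).1, !(o b0).2)
    have hflip : Function.Involutive flip := fun o => by
      funext b
      by_cases h : b = b0
      · subst h; simp [flip]
      · simp [flip, h]
    set gi : (Fin Bn → Outc n W J) → ℝ := fun o => if Good x y o then 1 else 0 with hgi
    set pi' : Outc n W J → ℝ := fun o => (bad1 D s0 T W J (b0:ℕ) x o : ℝ) with hpi
    have h2 : cT - ∑ o : Fin Bn → Outc n W J, pi' (o b0) ≤ 2 * ∑ o, gi o := by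
      rw [two_mul]
      conv_rhs => arg 2; rw [← Equiv.sum_comp (hflip.toPerm) gi]
      rw [← sum_add_distrib, sub_le_iff_le_add, ← sum_add_distrib, hcT, ← card_univ]
      rw [card_eq_sum_ones, Nat.cast_sum, Nat.cast_one]
      refine sum_le_sum fun o _ => ?_
      simp only [Function.Involutive.coe_toPerm, hgi, hpi, bad1]
      by_cases hp' : Pads D s0 T W J (b0:ℕ) (o b0).1 x
      · rw [if_pos hp', Nat.cast_zero, add_zero]
        rcases hgood x y o hxy hp' with h | h
        · rw [if_pos h]; split_ifs <;> linarith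
        · rw [if_pos (show Good x y (flip o) from h)]; split_ifs <;> linarith
      · rw [if_neg hp', Nat.cast_one]
        split_ifs <;> linarith
    have h3 : ∑ o : Fin Bn → Outc n W J, pi' (o b0) ≤ cT / 2 := by
      have h := sum_marginal b0 pi'
      have h4 : ∑ o, pi' o ≤ (Fintype.card (Outc n W J) : ℝ) / 2 :=
        le_trans (single_le_sum (f := fun b : Fin Bn => ∑ o, (bad1 D s0 T W J (b:ℕ) x o : ℝ))
          (fun b _ => sum_nonneg fun o _ => Nat.cast_nonneg _) (mem_univ b0))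
          (total_bad hD hs0 hW hT hJ hlog Bn x)
      have h5 := mul_le_mul_of_nonneg_left h4 hcT0.le
      rw [hcT] at h5
      rw [← h] at h5
      rw [hcT]
      refine le_of_mul_le_mul_right ?_ hcO
      linarith
    have hgsub : ∑ o, gi o - cT / 8 ≤ ∑ o : Ω, gi o.1 := by
      rw [← sum_subtype (univ.filter ok) (by simp) gi, sub_le_iff_le_add,
        ← sum_filter_add_sum_filter_not univ ok gi]
      refine add_le_add le_rfl (le_trans ?_ hnot)
      refine (sum_le_card_nsmul _ gi 1 fun o _ => by simp only [hgi]; split_ifs <;> norm_num).trans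
        (le_of_eq ?_)
      rw [nsmul_one]
    have hm : (1:ℝ) / 8 ≤ ∑ o : Ω, mass⁻¹ * u (Sum.inl (x, y)) o := by
      simp only [hu, Sum.elim_inl]
      rw [← mul_sum, le_inv_mul_iff₀ hmass0]
      have : ∑ o : Ω, gi o.1 = ∑ o : Ω, (if Good x y o.1 then (1:ℝ) else 0) := rfl
      linarith
    have hMm := mul_le_mul_of_nonneg_left hm (Nat.cast_nonneg (α := ℝ) M)
    have h4 := (hω (Sum.inl (x, y))).2 (by linarith)
    have e : ∑ l, u (Sum.inl (x, y)) (ω l) = ((univ.filter fun l => Good x y (ω l).1).card : ℝ) := by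
      rw [Finset.card_filter, Nat.cast_sum]
      refine sum_congr rfl fun l _ => ?_
      simp only [hu, Sum.elim_inl]
      split_ifs <;> simp
    rw [e] at h4
    linarith

end Vale.Agent.P249.Eps
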